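import Vale.Agent.P202.Mix.Defs2
import Vale.Agent.P202.Mix.LenBasic

/-!
P177, block LEV: the data at one level (cover `C` of the base, Teichmueller representatives of
finitely many integral elements, the element `Θ` killing the junk, the additive length).
-/

namespace Vale.Agent.P177.Lev

open Vale.Agent.P202.Mix WittVector Polynomial
open scoped ENNReal

universe u

section Defs

variable (p : ℕ) [Fact p.Prime] (k : Type u) [Field k] [CharP k p] (r : ℕ)

/-- the variables `t = x_0`, `u_i = x_i` in an `Rp`-algebra. -/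
noncomputable abbrev xC (C : Type u) [CommRing C] [Algebra (Rp p k r) C] (l : Fin (r + 1)) : C :=
  algebraMap (Rp p k r) C (xp p k r l)

/-- the ideal `(p, [t], [u_1], .., [u_r])` of `W(C)`. -/
noncomputable def vW (C : Type u) [CommRing C] [Algebra (Rp p k r) C] :
    Ideal (WittVector p C) :=
  Ideal.span (insert (p : WittVector p C) (Set.range fun l => teichmuller p (xC p k r C l)))

/-- the ideal `(p - [t], p ^ M)` of `W(C)`. -/
noncomputable def xiM (C : Type u) [CommRing C] [Algebra (Rp p k r) C] (M : ℕ) :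
    Ideal (WittVector p C) :=
  Ideal.span {(p : WittVector p C) - teichmuller p (tC p k r C), (p : WittVector p C) ^ M}

variable {p k r} {Λ : Type u} [CommRing Λ] (ψ : Λ →+* WittVector p (Rp p k r))

/-- `Λ → W(C)`. -/
noncomputable def laW (C : Type u) [CommRing C] [Algebra (Rp p k r) C] :
    Λ →+* WittVector p C :=
  (WittVector.map (algebraMap (Rp p k r) C)).comp ψ

end Defs

section Level

variable {p : ℕ} [Fact p.Prime] {k : Type u} [Field k] [CharP k p] {r : ℕ}
variable {Λ : Type u} [CommRing Λ] [IsLocalRing Λ] (ψ : Λ →+* WittVector p (Rp p k r))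

/-- The data at level `e` for finitely many integral elements `b l` of the field `Ω ⊇ Λ`, roots of
the monic polynomials `F l`. `G l` are monic polynomials of degree `D`, `ε > 0`; `G`, `D`, `ε` do
not depend on `e`. The growth function `Φ` is arbitrary. -/
structure Level {Ω : Type u} [Field Ω] [Algebra Λ Ω] {s : ℕ} (b : Fin s → Ω) (F G : Fin s → Λ[X])
    (D : ℕ) (ε : ℝ≥0∞) (Φ : ℕ → ℕ) (e : ℕ) where
  r0 : ℕ
  ext : PExt.{u} p k r r0
  /-- the normalized additive length on the modules over `W(C)` -/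
  L : AddLen (WittVector p ext.C)
  /-- Teichmueller representatives of the `b l` -/
  c : Fin s → ext.C
  /-- the roots of `Θ` kill the junk; `η = Θ^(1/q)`, `q = p ^ j` -/
  Θ : ext.C
  j : ℕ
  I : ℕ
  le_j : e ≤ j
  le_I : Φ j ≤ I
  len_one : L.len (WittVector p ext.C ⧸ vW p k r ext.C) = 1
  /-- positivity: `λ([η]^e (W(C)/(p, [t], [u]))) ≥ ε`, `η = Θ^(1/q)` -/
  len_pos : ε ≤ L.len (LinearMap.range (LinearMap.lsmul (WittVector p ext.C)
    (WittVector p ext.C ⧸ vW p k r ext.C) (teichmuller p (rt p j Θ) ^ e)))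
  /-- `c_l` divides `Θ` if `b l ≠ 0` -/
  dvd : ∀ l, b l ≠ 0 → c l ∣ Θ
  /-- all polynomial relations between the `b l` hold up to `[Θ]` modulo `p ^ (I + 1)` -/
  rel : ∀ f : MvPolynomial (Fin s) Λ, MvPolynomial.aeval b f = 0 →
    teichmuller p Θ * MvPolynomial.eval₂ (laW ψ ext.C) (fun l => teichmuller p (c l)) f ∈
      xiM p k r ext.C (I + 1)
  /-- the honest relations `G_l([c_l]) = 0` -/
  relG : ∀ l, Polynomial.eval₂ (laW ψ ext.C) (teichmuller p (c l)) (G l) ∈ xiM p k r ext.C (I + 1)
  /-- `[Θ]` is a multiple of `∏ G_l'([c_l])` -/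
  disc : teichmuller p Θ ∈ Ideal.span {∏ l, Polynomial.eval₂ (laW ψ ext.C) (teichmuller p (c l))
    (derivative (G l))} ⊔ xiM p k r ext.C (I + 1)
  /-- `c_l ^ D ∈ (t, u)` if `F_l ≡ X ^ n` modulo the maximal ideal -/
  nil : ∀ l, (∀ i < (F l).natDegree, (F l).coeff i ∈ IsLocalRing.maximalIdeal Λ) →
    c l ^ D ∈ Ideal.span (Set.range (xC p k r ext.C))

end Level

end Vale.Agent.P177.Lev
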