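import Vale.Agent.P177.Lev.Main
import Vale.Agent.P177.AR.PiN
import Vale.Agent.P202.Mix.IsBaseC

/-!
P177, block LEV: the base `W(k)[[u]]`; the homomorphism `A1 = Λ[T]/(G_l(T_l)) → B/p^N`.
-/

namespace Vale.Agent.P177.Lev

open Vale.Agent.P202.Mix WittVector IsLocalRing Vale.Agent.P177.AR
open Vale.Agent.P177.PI hiding rt
open scoped ENNReal Polynomial

universe u

section Base

variable (p : ℕ) [Fact p.Prime] (k : Type u) [Field k] [CharP k p] [PerfectRing k p]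

theorem maximalIdeal_witt : maximalIdeal (WittVector p k) = Ideal.span {(p : WittVector p k)} :=
  (IsDiscreteValuationRing.irreducible_iff_uniformizer _).1 (WittVector.irreducible p)

/-- the base `W(k)[[u]]`. -/
theorem exists_base_ps (r : ℕ) :
    ∃ (ψ : MvPowerSeries (Fin r) (WittVector p k) →+* WittVector p (Rp p k r))
      (red : MvPowerSeries (Fin r) (WittVector p k) →+*
        R0 k r ⧸ Ideal.span {(MvPowerSeries.X 0 : R0 k r)}),
      IsBase p k r (MvPowerSeries (Fin r) (WittVector p k)) (fun i => MvPowerSeries.X i) ψ red ∧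
      ∀ c : WittVector p k, ψ (MvPowerSeries.C c) =
        WittVector.map ((PerfectClosure.of (R0 k r) p).comp MvPowerSeries.C) c :=
  exists_isBase p k r (maximalIdeal_witt p k) (RingHom.id _)

end Base

section A1

variable {p : ℕ} [Fact p.Prime] {k : Type u} [Field k] [CharP k p] {r : ℕ}
variable {Λ : Type u} [CommRing Λ] {s : ℕ}

/-- `A1 = Λ[T]/(G_l(T_l))`. -/
abbrev A1 (G : Fin s → Λ[X]) : Type u :=
  MvPolynomial (Fin s) Λ ⧸ Ideal.span (Set.range fun j => Polynomial.toMvPolynomial j (G j))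

/-- the class of `T_l`. -/
noncomputable def T1 (G : Fin s → Λ[X]) (l : Fin s) : A1 G :=
  Ideal.Quotient.mk _ (MvPolynomial.X l)

theorem mk_eq_aeval (G : Fin s → Λ[X]) (f : MvPolynomial (Fin s) Λ) :
    (Ideal.Quotient.mk _ f : A1 G) = MvPolynomial.aeval (T1 G) f := by
  have h := MvPolynomial.comp_aeval_apply (R := Λ) (MvPolynomial.X : Fin s → _)
    (Ideal.Quotient.mkₐ Λ (Ideal.span (Set.range fun j => Polynomial.toMvPolynomial j (G j)))) f
  rw [MvPolynomial.aeval_X_left_apply] at h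
  exact h

theorem adjoin_T1 (G : Fin s → Λ[X]) : Algebra.adjoin Λ (Set.range (T1 G)) = ⊤ := by
  rw [Algebra.adjoin_range_eq_range_aeval, AlgHom.range_eq_top]
  intro x
  obtain ⟨f, rfl⟩ := Ideal.Quotient.mk_surjective x
  exact ⟨f, (mk_eq_aeval G f).symm⟩

theorem aeval_T1_poly (G : Fin s → Λ[X]) (l : Fin s) (f : Λ[X]) :
    Polynomial.aeval (T1 G l) f = Ideal.Quotient.mk _ (Polynomial.toMvPolynomial l f) := by
  have h := Polynomial.aeval_algHom_apply
    (Ideal.Quotient.mkₐ Λ (Ideal.span (Set.range fun j => Polynomial.toMvPolynomial j (G j))))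
    (MvPolynomial.X l) f
  exact h

theorem aeval_T1 (G : Fin s → Λ[X]) (l : Fin s) : Polynomial.aeval (T1 G l) (G l) = 0 := by
  rw [aeval_T1_poly, Ideal.Quotient.eq_zero_iff_mem]
  exact Ideal.subset_span ⟨l, rfl⟩

variable [IsLocalRing Λ] {ψ : Λ →+* WittVector p (Rp p k r)}
  {Ω : Type u} [Field Ω] [Algebra Λ Ω] {b : Fin s → Ω} {F G : Fin s → Λ[X]} {D : ℕ} {ε : ℝ≥0∞}
  {Φ : ℕ → ℕ} {e : ℕ} (ℓ : Level ψ b F G D ε Φ e)

/-- evaluation at the Teichmueller representatives -/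
noncomputable def Level.ev : MvPolynomial (Fin s) Λ →+* WittVector p ℓ.ext.C :=
  MvPolynomial.eval₂Hom (laW ψ ℓ.ext.C) fun l => teichmuller p (ℓ.c l)

theorem Level.ev_apply (f : MvPolynomial (Fin s) Λ) : ℓ.ev f =
    MvPolynomial.eval₂ (laW ψ ℓ.ext.C) (fun l => teichmuller p (ℓ.c l)) f := rfl

theorem Level.ev_X (l : Fin s) : ℓ.ev (MvPolynomial.X l) = teichmuller p (ℓ.c l) :=
  MvPolynomial.eval₂Hom_X' _ _ _

theorem Level.ev_C (x : Λ) : ℓ.ev (MvPolynomial.C x) = laW ψ ℓ.ext.C x :=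
  MvPolynomial.eval₂Hom_C _ _ _

theorem Level.ev_toMv (l : Fin s) (f : Λ[X]) : ℓ.ev (Polynomial.toMvPolynomial l f) =
    Polynomial.eval₂ (laW ψ ℓ.ext.C) (teichmuller p (ℓ.c l)) f :=
  eval_toMv (fun l => teichmuller p (ℓ.c l)) l f

theorem xiM_eq_XI (C : Type u) [CommRing C] [Algebra (Rp p k r) C] (N : ℕ) :
    xiM p k r C N = XI p (tC p k r C) N := by
  ext x
  rw [mem_xiM_iff_exists, mem_XI]

theorem xiM_anti (C : Type u) [CommRing C] [Algebra (Rp p k r) C] {N M : ℕ} (h : N ≤ M) :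
    xiM p k r C M ≤ xiM p k r C N := by
  rw [xiM, Ideal.span_le]
  rintro y (rfl | rfl)
  · exact xi_mem_xiM N
  · obtain ⟨n, rfl⟩ := Nat.exists_eq_add_of_le h
    rw [pow_add]
    exact Ideal.mul_mem_right _ _ (p_pow_mem_xiM N)

/-- the homomorphism `A1 → B/p^N`, `N ≤ I + 1`. -/
theorem Level.exists_Psi (N : ℕ) (hN : N ≤ ℓ.I + 1) :
    ∃ Ψ : A1 G →ₐ[Λ] BN ψ ℓ.ext.C N,
      (∀ f : MvPolynomial (Fin s) Λ, Ψ (Ideal.Quotient.mk _ f) = piN ψ ℓ.ext.C N (ℓ.ev f)) ∧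
      (∀ l, Ψ (T1 G l) = piN ψ ℓ.ext.C N (teichmuller p (ℓ.c l))) ∧
      piN ψ ℓ.ext.C N (teichmuller p ℓ.Θ) ∈
        Ideal.span {Ψ (∏ l, Polynomial.aeval (T1 G l) (Polynomial.derivative (G l)))} := by
  let θ : MvPolynomial (Fin s) Λ →ₐ[Λ] BN ψ ℓ.ext.C N :=
    { (piN ψ ℓ.ext.C N).comp ℓ.ev with
      commutes' := fun x => by
        change piN ψ ℓ.ext.C N (ℓ.ev (MvPolynomial.C x)) = _
        rw [ℓ.ev_C]
        rfl }
  have hθ : ∀ f, θ f = piN ψ ℓ.ext.C N (ℓ.ev f) := fun f => rfl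
  have hxi : ∀ x ∈ xiM p k r ℓ.ext.C (ℓ.I + 1), piN ψ ℓ.ext.C N x = 0 := by
    intro x hx
    rw [← RingHom.mem_ker, ker_piN, ← xiM_eq_XI]
    exact xiM_anti _ hN hx
  have hker : ∀ f ∈ Ideal.span (Set.range fun j => Polynomial.toMvPolynomial j (G j)),
      θ f = 0 := by
    have : Ideal.span (Set.range fun j => Polynomial.toMvPolynomial j (G j)) ≤
        RingHom.ker θ := by
      rw [Ideal.span_le]
      rintro _ ⟨j, rfl⟩
      rw [SetLike.mem_coe, RingHom.mem_ker, hθ, ℓ.ev_toMv]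
      exact hxi _ (ℓ.relG j)
    exact fun f hf => this hf
  refine ⟨Ideal.Quotient.liftₐ _ θ hker, fun f => rfl, fun l => ?_, ?_⟩
  · change piN ψ ℓ.ext.C N (ℓ.ev (MvPolynomial.X l)) = _
    rw [ℓ.ev_X]
  · have h1 : Ideal.Quotient.liftₐ _ θ hker
        (∏ l, Polynomial.aeval (T1 G l) (Polynomial.derivative (G l))) =
        piN ψ ℓ.ext.C N (∏ l, Polynomial.eval₂ (laW ψ ℓ.ext.C) (teichmuller p (ℓ.c l))
          (Polynomial.derivative (G l))) := by
      rw [map_prod, map_prod]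
      refine Finset.prod_congr rfl fun l _ => ?_
      rw [aeval_T1_poly, ← ℓ.ev_toMv]
      rfl
    rw [h1]
    obtain ⟨y, hy, z, hz, hyz⟩ := Submodule.mem_sup.1 ℓ.disc
    obtain ⟨c, rfl⟩ := Ideal.mem_span_singleton'.1 hy
    rw [← hyz, map_add, hxi z hz, add_zero, map_mul]
    exact Ideal.mul_mem_left _ _ (Ideal.mem_span_singleton_self _)

end A1

end Vale.Agent.P177.Lev
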