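import Vale.Agent.P202.Mix.LamTotal

/-!
P177, block LEV: length estimates over towers, modulo a maximal ideal (after P202 UnitLenB).
-/

namespace Vale.Agent.P177.Lev

open Vale.Agent.P202.Mix
open scoped ENNReal

universe u v w

section len

variable {S : Type u} [CommRing S] (𝔪 : Ideal S) [h𝔪 : 𝔪.IsMaximal] {N : Type v} [AddCommGroup N] [Module S N]

theorem length_residue : Module.length S (S ⧸ 𝔪) = 1 := by
  have h : IsSimpleModule S (S ⧸ 𝔪) :=
    isSimpleModule_iff_isCoatom.mpr h𝔪.out
  exact Module.length_eq_one S _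

/-- lower bound by linearly independent elements. -/
theorem length_ge {J : Type*} [Fintype J] (w : J → N) (Y : Submodule S N) (hw : ∀ j, w j ∈ Y)
    (h : ∀ c : J → S, ∑ j, c j • w j = 0 → ∀ j, c j ∈ 𝔪) :
    (Fintype.card J : ℕ∞) ≤ Module.length S Y := by
  let φ : (J → S) →ₗ[S] N := ∑ j, (LinearMap.toSpanSingleton S N (w j)) ∘ₗ LinearMap.proj j
  have hφ : ∀ c, φ c = ∑ j, c j • w j := by
    intro c
    simp [φ]
  let ψ : (J → S) →ₗ[S] (J → S ⧸ 𝔪) :=
    LinearMap.pi fun j => (𝔪).mkQ ∘ₗ LinearMap.proj j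
  have hψs : Function.Surjective ψ := by
    intro c
    choose y hy using fun j => (𝔪).mkQ_surjective (c j)
    exact ⟨y, funext hy⟩
  have hker : LinearMap.ker φ ≤ LinearMap.ker ψ := by
    intro c hc
    rw [LinearMap.mem_ker, hφ] at hc
    rw [LinearMap.mem_ker]
    funext j
    exact (Submodule.Quotient.mk_eq_zero _).mpr (h c hc j)
  have hle : LinearMap.range φ ≤ Y := by
    rintro _ ⟨c, rfl⟩
    rw [hφ]
    exact sum_mem fun j _ => Y.smul_mem _ (hw j)
  have e1 := φ.quotKerEquivRange.length_eq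
  have e2 := (ψ.quotKerEquivOfSurjective hψs).length_eq
  have h3 : Module.length S (J → S ⧸ 𝔪) ≤ Module.length S (LinearMap.range φ) := by
    rw [← e1, ← e2]
    exact Module.length_le_of_surjective (Submodule.factor hker) (Submodule.factor_surjective hker)
  rw [Module.length_pi_of_fintype, Finset.sum_const, Finset.card_univ, length_residue 𝔪,
    nsmul_eq_mul, mul_one] at h3
  exact h3.trans (len_mono hle)

/-- upper bound by generators. -/
theorem length_le (hN : ∀ s ∈ 𝔪, ∀ x : N, s • x = 0) {J : Type*} [Fintype J]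
    (g : J → N) (Y : Submodule S N) (hY : Y ≤ Submodule.span S (Set.range g)) :
    Module.length S Y ≤ Fintype.card J := by
  classical
  let f : (J → S ⧸ 𝔪) →ₗ[S] N := ∑ j, ((𝔪).liftQ
    (LinearMap.toSpanSingleton S N (g j)) (fun a ha => by
      rw [LinearMap.mem_ker, LinearMap.toSpanSingleton_apply]
      exact hN a ha _)) ∘ₗ LinearMap.proj j
  have hf : ∀ z, f z = ∑ j, ((𝔪).liftQ (LinearMap.toSpanSingleton S N (g j))
    (fun a ha => by
      rw [LinearMap.mem_ker, LinearMap.toSpanSingleton_apply]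
      exact hN a ha _)) (z j) := by
    intro z
    simp [f]
  have hle : Y ≤ LinearMap.range f := by
    refine hY.trans (Submodule.span_le.mpr ?_)
    rintro _ ⟨j, rfl⟩
    refine ⟨Pi.single j (Ideal.Quotient.mk _ 1), ?_⟩
    rw [hf, Finset.sum_eq_single j]
    · rw [Pi.single_eq_same]
      exact one_smul S (g j)
    · intro b _ hb
      rw [Pi.single_eq_of_ne hb, map_zero]
    · intro h'
      exact absurd (Finset.mem_univ _) h'
  refine (len_mono hle).trans ((Module.length_le_of_surjective f.rangeRestrict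
    f.surjective_rangeRestrict).trans (le_of_eq ?_))
  rw [Module.length_pi_of_fintype, Finset.sum_const, Finset.card_univ, length_residue 𝔪,
    nsmul_eq_mul, mul_one]

end len

section tower

variable {S : Type u} [CommRing S] (𝔪 : Ideal S) [h𝔪 : 𝔪.IsMaximal] {R : Type v} [CommRing R] [Algebra S R]
  {I : Type*} [Preorder I] [IsDirectedOrder I] (T : Tower S R I)
  {N : Type w} [AddCommGroup N] [Module S N] [Module R N] [IsScalarTower S R N]

omit [IsDirectedOrder I] in
/-- the normalized length of a module generated by `m` elements over the algebra of the tower. -/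
theorem nlen_le (hN : ∀ s ∈ 𝔪, ∀ x : N, s • x = 0) (i0 : I) (h0 : ∀ i, i0 ≤ i)
    (hb : T.sub i0 = ⊥) (hr : T.rank i0 = 1) {m : ℕ} (v : Fin m → N) (i : I) :
    T.nlen i (Submodule.span S (Set.range v)) ≤ m := by
  obtain ⟨n, e, hn, he, hg⟩ := T.gen i0 i (h0 i)
  rw [hr, mul_one] at hn
  have h1 : ext (T.sub i) (Submodule.span S (Set.range v)) ≤
      Submodule.span S (Set.range fun x : Fin n × Fin m => e x.1 • v x.2) := by
    refine ext_le fun b hb' x hx => ?_
    obtain ⟨c, hc, rfl⟩ := hg b hb'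
    have hc' : ∀ k, ∃ s : S, algebraMap S R s = c k := fun k => by
      have := hc k
      rwa [hb, Algebra.mem_bot] at this
    choose s hs using hc'
    induction hx using Submodule.span_induction with
    | mem x hx =>
      obtain ⟨j, rfl⟩ := hx
      rw [Finset.sum_smul]
      refine sum_mem fun k _ => ?_
      rw [← hs k, mul_comm, mul_smul, algebraMap_smul]
      exact Submodule.smul_mem _ _ (Submodule.subset_span ⟨(k, j), rfl⟩)
    | zero => rw [smul_zero]; exact zero_mem _
    | add x y _ _ hx hy => rw [smul_add]; exact add_mem hx hy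
    | smul a x _ hx =>
      rw [← algebraMap_smul R a x, smul_comm, algebraMap_smul]
      exact Submodule.smul_mem _ _ hx
  have h2 : T.len i (Submodule.span S (Set.range v)) ≤ (n * m : ℕ) := by
    have := length_le 𝔪 hN _ _ h1
    rwa [Fintype.card_prod, Fintype.card_fin, Fintype.card_fin] at this
  rw [Tower.nlen, ← hn]
  have h3 : ((T.len i (Submodule.span S (Set.range v)) : ℕ∞) : ENNReal) ≤ ((n * m : ℕ) : ENNReal) := by
    have := (ENat.toENNReal_le).mpr h2
    rwa [ENat.toENNReal_coe] at this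
  have hn0 : (n : ENNReal) ≠ 0 := by
    rw [hn]
    exact T.rank_ne_zero i
  rw [ENNReal.div_le_iff hn0 (ENNReal.natCast_ne_top n)]
  refine h3.trans (le_of_eq ?_)
  rw [Nat.cast_mul, mul_comm]

/-- upper bound for `lam`. -/
theorem lam_le_of_cover (hN : ∀ s ∈ 𝔪, ∀ x : N, s • x = 0) (i0 : I)
    (h0 : ∀ i, i0 ≤ i) (hb : T.sub i0 = ⊥) (hr : T.rank i0 = 1) (m : ℕ)
    (H : ∀ X : Submodule S N, X.FG → ∃ v : Fin m → N,
      X ≤ (Submodule.span R (Set.range v)).restrictScalars S) : T.lam N ≤ m := by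
  refine T.lam_le fun X hX => ?_
  obtain ⟨v, hv⟩ := H X hX
  have key : ∀ x ∈ Submodule.span R (Set.range v), ∃ i,
      x ∈ ext (T.sub i) (Submodule.span S (Set.range v)) := by
    intro x hx
    induction hx using Submodule.span_induction with
    | mem x hx => exact ⟨i0, le_ext _ _ (Submodule.subset_span hx)⟩
    | zero => exact ⟨i0, zero_mem _⟩
    | add x y _ _ hx hy =>
      obtain ⟨i, hi⟩ := hx
      obtain ⟨j, hj⟩ := hy
      obtain ⟨l, hil, hjl⟩ := exists_ge_ge i j
      exact ⟨l, add_mem (ext_mono (T.mono hil) le_rfl hi) (ext_mono (T.mono hjl) le_rfl hj)⟩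
    | smul a x _ hx =>
      obtain ⟨i, hi⟩ := hx
      obtain ⟨j, hj⟩ := T.cover a
      obtain ⟨l, hil, hjl⟩ := exists_ge_ge i j
      exact ⟨l, smul_ext_mem (T.mono hjl hj) (ext_mono (T.mono hil) le_rfl hi)⟩
  obtain ⟨i, hi⟩ : ∃ i, X ≤ ext (T.sub i) (Submodule.span S (Set.range v)) := by
    classical
    obtain ⟨s, rfl⟩ := hX
    have h1 : ∀ x ∈ s, ∃ i, x ∈ ext (T.sub i) (Submodule.span S (Set.range v)) :=
      fun x hx => key x (hv (Submodule.subset_span hx))
    have h2 : ∃ i, ∀ x ∈ s, x ∈ ext (T.sub i) (Submodule.span S (Set.range v)) := by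
      clear hv
      induction s using Finset.induction_on with
      | empty => exact ⟨i0, by simp⟩
      | insert x s _ ih =>
        obtain ⟨i, hi⟩ := ih fun y hy => h1 y (Finset.mem_insert_of_mem hy)
        obtain ⟨j, hj⟩ := h1 x (Finset.mem_insert_self x s)
        obtain ⟨l, hil, hjl⟩ := exists_ge_ge i j
        refine ⟨l, fun y hy => ?_⟩
        rcases Finset.mem_insert.mp hy with rfl | hy
        · exact ext_mono (T.mono hjl) le_rfl hj
        · exact ext_mono (T.mono hil) le_rfl (hi y hy)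
    obtain ⟨i, hi⟩ := h2
    exact ⟨i, Submodule.span_le.mpr hi⟩
  refine (T.lamX_le_nlen i X).trans ?_
  have h3 : T.nlen i X ≤ T.nlen i (Submodule.span S (Set.range v)) := by
    refine ENNReal.div_le_div_right ?_ _
    rw [ENat.toENNReal_le, Tower.len, Tower.len, ← ext_ext (le_refl (T.sub i))
      (Submodule.span S (Set.range v))]
    exact len_mono (ext_mono le_rfl hi)
  exact h3.trans (nlen_le 𝔪 T hN i0 h0 hb hr v i)

omit [IsDirectedOrder I] in
/-- lower bound for `lam`. -/
theorem one_le_lam (x : N) (H : ∀ i : I, ∃ (J : Type u) (_ : Fintype J) (w : J → R),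
    Fintype.card J = T.rank i ∧ (∀ j, w j ∈ T.sub i) ∧
      ∀ c : J → S, ∑ j, c j • w j • x = 0 → ∀ j, c j ∈ 𝔪) : 1 ≤ T.lam N := by
  refine le_trans ?_ (T.lamX_le_lam (X := Submodule.span S {x}) (Submodule.fg_span_singleton x))
  refine le_iInf fun i => ?_
  obtain ⟨J, _, w, hJ, hw, h⟩ := H i
  have h1 := length_ge 𝔪 (fun j => w j • x) (ext (T.sub i) (Submodule.span S {x}))
    (fun j => smul_mem_ext (hw j) (Submodule.mem_span_singleton_self x)) h
  rw [Tower.nlen, ENNReal.le_div_iff_mul_le (Or.inl (T.rank_ne_zero i))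
    (Or.inl (ENNReal.natCast_ne_top _)), one_mul, ← hJ]
  have := (ENat.toENNReal_le).mpr h1
  rwa [ENat.toENNReal_coe] at this

end tower

end Vale.Agent.P177.Lev
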