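import Vale.Agent.P177.Lev.Defs
import Vale.Agent.P177.Lev.LenMax
import Vale.Agent.P202.Mix.UnitLen

/-!
P177, block LEV: the additive length on the modules over `W(C)` with `L(W(C)/(p, [t], [u])) = 1`.
-/

namespace Vale.Agent.P177.Lev

open Vale.Agent.P202.Mix Vale.Agent.P202.Mix.UL WittVector
open scoped ENNReal

universe u

variable {p : ℕ} [Fact p.Prime] {k : Type u} [Field k] [CharP k p] {r : ℕ}

section vW

variable {C : Type u} [CommRing C] [CharP C p] [PerfectRing C p] [Algebra (Rp p k r) C]

theorem mem_vW_iff (x : WittVector p C) : x ∈ vW p k r C ↔ x.coeff 0 ∈ vI p k r C := by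
  constructor
  · intro hx
    have hle : vW p k r C ≤ (vI p k r C).comap (constantCoeff : WittVector p C →+* C) := by
      rw [vW, Ideal.span_le]
      rintro y (rfl | ⟨l, rfl⟩)
      · rw [SetLike.mem_coe, Ideal.mem_comap, map_natCast, CharP.cast_eq_zero]
        exact zero_mem _
      · rw [SetLike.mem_coe, Ideal.mem_comap]
        change (teichmuller p (xC p k r C l)).coeff 0 ∈ _
        rw [teichmuller_coeff_zero]
        exact Ideal.subset_span ⟨l, rfl⟩
    exact hle hx
  · intro hx
    obtain ⟨c, hc⟩ := (Ideal.mem_span_range_iff_exists_fun).1 hx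
    have h1 : x - ∑ l, teichmuller p (c l) * teichmuller p (xC p k r C l) ∈
        Ideal.span {(p : WittVector p C)} := by
      rw [← ker_constantCoeff, RingHom.mem_ker, map_sub, map_sum, sub_eq_zero]
      change x.coeff 0 = _
      rw [← hc]
      refine Finset.sum_congr rfl fun l _ => ?_
      rw [map_mul]
      change _ = (teichmuller p (c l)).coeff 0 * (teichmuller p (xC p k r C l)).coeff 0
      rw [teichmuller_coeff_zero, teichmuller_coeff_zero]
      rfl
    have h2 : Ideal.span {(p : WittVector p C)} ≤ vW p k r C :=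
      Ideal.span_mono (Set.singleton_subset_iff.2 (Set.mem_insert _ _))
    have h3 : ∑ l, teichmuller p (c l) * teichmuller p (xC p k r C l) ∈ vW p k r C :=
      Ideal.sum_mem _ fun l _ => Ideal.mul_mem_left _ _
        (Ideal.subset_span (Set.mem_insert_of_mem _ ⟨l, rfl⟩))
    have := add_mem (h2 h1) h3
    rwa [sub_add_cancel] at this

/-- `W(C)/(p, [t], [u]) = C/(t, u)`. -/
theorem exists_vW_equiv : ∃ θ : (WittVector p C ⧸ vW p k r C) ≃+* (C ⧸ vI p k r C),
    ∀ x, θ (Ideal.Quotient.mk _ x) = Ideal.Quotient.mk _ (x.coeff 0) := by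
  let f : WittVector p C →+* C ⧸ vI p k r C :=
    (Ideal.Quotient.mk (vI p k r C)).comp constantCoeff
  have hker : RingHom.ker f = vW p k r C := by
    ext x
    rw [RingHom.mem_ker, mem_vW_iff]
    exact Ideal.Quotient.eq_zero_iff_mem
  have hs : Function.Surjective f := by
    intro y
    obtain ⟨c, rfl⟩ := Ideal.Quotient.mk_surjective y
    refine ⟨teichmuller p c, ?_⟩
    change Ideal.Quotient.mk _ ((teichmuller p c).coeff 0) = _
    rw [teichmuller_coeff_zero]
  refine ⟨(Ideal.quotEquivOfEq hker.symm).trans (RingHom.quotientKerEquivOfSurjective hs),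
    fun x => rfl⟩

theorem te_add_sub_mem (a b : C) : teichmuller p (a + b) - (teichmuller p a + teichmuller p b) ∈
    vW p k r C := by
  rw [mem_vW_iff]
  have : (teichmuller p (a + b) - (teichmuller p a + teichmuller p b)).coeff 0 =
      constantCoeff (teichmuller p (a + b) - (teichmuller p a + teichmuller p b)) := rfl
  rw [this, map_sub, RingHom.map_add constantCoeff]
  change (teichmuller p (a + b)).coeff 0 - ((teichmuller p a).coeff 0 +
    (teichmuller p b).coeff 0) ∈ _
  rw [teichmuller_coeff_zero, teichmuller_coeff_zero, teichmuller_coeff_zero, sub_self]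
  exact zero_mem _

end vW

section Range

theorem range_gen' [PerfectRing k p] {W : Type*} [CommRing W]
    (ω : Rp p k r →+* W) (hω : ∀ l, ω (xp p k r l) = 0) (G : Subring W)
    (h0 : ∀ c : k, ω (kR p k r c) ∈ G)
    (h2 : ∀ e l, ω (rt p e (xp p k r l)) ∈ G) (g : Rp p k r) : ω g ∈ G := by
  obtain ⟨n, h, hg⟩ := exists_pow_of g
  obtain ⟨B, hB⟩ := exists_box r (p ^ n)
  have h3 := Ideal.mem_map_of_mem (PerfectClosure.of (R0 k r) p) (ps_decomp (p ^ n) B hB h)
  rw [Ideal.map_span, ← Set.range_comp, Ideal.mem_span_range_iff_exists_fun] at h3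
  obtain ⟨c, hc⟩ := h3
  have h4 : g = (∑ m ∈ B, rt p n (kR p k r (MvPowerSeries.coeff m h)) *
      ∏ l, rt p n (xp p k r l) ^ m l) + ∑ l, rt p n (c l) * xp p k r l := by
    refine rt_inj (e := n) ?_
    rw [add_pow_char_pow, sum_pow_char_pow, sum_pow_char_pow, hg]
    have e1 : ∀ m ∈ B, (rt p n (kR p k r (MvPowerSeries.coeff m h)) *
        ∏ l, rt p n (xp p k r l) ^ m l) ^ p ^ n =
        PerfectClosure.of (R0 k r) p (MvPowerSeries.monomial m (MvPowerSeries.coeff m h)) := by
      intro m _
      rw [mul_pow, rt_pow_self, ← Finset.prod_pow, monomial_eq, map_mul, map_prod]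
      refine congrArg₂ _ rfl (Finset.prod_congr rfl fun l _ => ?_)
      rw [← pow_mul, mul_comm, pow_mul, rt_pow_self, map_pow]
      rfl
    have e2 : ∀ l ∈ (Finset.univ : Finset (Fin (r + 1))), (rt p n (c l) * xp p k r l) ^ p ^ n =
        c l * (PerfectClosure.of (R0 k r) p ∘ fun l => (MvPowerSeries.X l : R0 k r) ^ p ^ n) l := by
      intro l _
      rw [mul_pow, rt_pow_self, Function.comp_apply, map_pow]
      rfl
    rw [Finset.sum_congr rfl e1, Finset.sum_congr rfl e2, hc, map_sub, map_sum]
    ring
  rw [h4, map_add, map_sum, map_sum]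
  refine add_mem (sum_mem fun m _ => ?_) (sum_mem fun l _ => ?_)
  · rw [map_mul, map_prod]
    refine mul_mem ?_ (prod_mem fun l _ => ?_)
    · have e3 : rt p n (kR p k r (MvPowerSeries.coeff m h)) =
          kR p k r (rt p n (MvPowerSeries.coeff m h)) := (rt_map (kR p k r) n _).symm
      rw [e3]
      exact h0 _
    · rw [map_pow]
      exact pow_mem (h2 _ _) _
  · rw [map_mul, hω, mul_zero]
    exact zero_mem _

end Range

section Main

variable (p k r) in
/-- the base ring of the tower. -/
abbrev Sb : Type u := MvPolynomial (Fin (r + 1)) (WittVector p k)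

variable (p k r) in
/-- `Sb → k`. -/
noncomputable def sk : Sb p k r →+* k :=
  (constantCoeff : WittVector p k →+* k).comp MvPolynomial.constantCoeff

omit [CharP k p] in
theorem sk_surj : Function.Surjective (sk p k r) := by
  intro y
  refine ⟨MvPolynomial.C (teichmuller p y), ?_⟩
  change (constantCoeff : WittVector p k →+* k)
    (MvPolynomial.constantCoeff (MvPolynomial.C (teichmuller p y))) = y
  rw [MvPolynomial.constantCoeff_C]
  exact teichmuller_coeff_zero p y

variable (p k r) in
/-- `Sb → W(C)`. -/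
noncomputable def sW (C : Type u) [CommRing C] [Algebra (Rp p k r) C] :
    Sb p k r →+* WittVector p C :=
  MvPolynomial.eval₂Hom (WittVector.map (kC p k r C) : WittVector p k →+* WittVector p C)
    fun l => teichmuller p (xC p k r C l)

theorem sW_X (C : Type u) [CommRing C] [Algebra (Rp p k r) C] (l : Fin (r + 1)) :
    sW p k r C (MvPolynomial.X l) = teichmuller p (xC p k r C l) :=
  MvPolynomial.eval₂Hom_X' (WittVector.map (kC p k r C) : WittVector p k →+* WittVector p C) _ l

theorem sW_C (C : Type u) [CommRing C] [Algebra (Rp p k r) C] (a : WittVector p k) :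
    sW p k r C (MvPolynomial.C a) = WittVector.map (kC p k r C) a :=
  MvPolynomial.eval₂Hom_C (WittVector.map (kC p k r C) : WittVector p k →+* WittVector p C) _ a

/-- modulo the variables `Sb` acts through `k`. -/
theorem mk_sW (C : Type u) [CommRing C] [Algebra (Rp p k r) C] (s : Sb p k r) :
    Ideal.Quotient.mk (vI p k r C) ((sW p k r C s).coeff 0) = kCb p k r C (sk p k r s) := by
  have h : ((Ideal.Quotient.mk (vI p k r C)).comp constantCoeff).comp (sW p k r C) =
      (kCb p k r C).comp (sk p k r) := by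
    refine MvPolynomial.ringHom_ext (fun a => ?_) fun l => ?_
    · change Ideal.Quotient.mk (vI p k r C) ((sW p k r C (MvPolynomial.C a)).coeff 0) =
        kCb p k r C (constantCoeff (MvPolynomial.constantCoeff (MvPolynomial.C a)))
      rw [sW_C, MvPolynomial.constantCoeff_C, WittVector.map_coeff]
      rfl
    · change Ideal.Quotient.mk (vI p k r C) ((sW p k r C (MvPolynomial.X l)).coeff 0) =
        kCb p k r C (constantCoeff (MvPolynomial.constantCoeff (MvPolynomial.X l)))
      rw [sW_X, MvPolynomial.constantCoeff_X, map_zero, map_zero, teichmuller_coeff_zero,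
        Ideal.Quotient.eq_zero_iff_mem]
      exact Ideal.subset_span ⟨l, rfl⟩
  exact RingHom.congr_fun h s

/-- **The additive length on `W(C)`-modules.** -/
theorem exists_len_witt [PerfectRing k p] {r0 : ℕ} (d : PExt.{u} p k r r0) :
    ∃ L : AddLen (WittVector p d.C), L.len (WittVector p d.C ⧸ vW p k r d.C) = 1 := by
  classical
  let algS : Algebra (Sb p k r) (WittVector p d.C) := (sW p k r d.C).toAlgebra
  let a : Fin (r + 1) → Sb p k r := fun i => MvPolynomial.X i
  obtain ⟨f, hf⟩ := exists_lift p (Sb p k r) a (T := WittVector p d.C)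
    (fun i e => teichmuller p (rt p e (xC p k r d.C i)))
    (fun i => by rw [rt_zero_exp]; exact (sW_X d.C i).symm)
    (fun i e => by rw [← map_pow, rt_succ_pow])
  let _ : Algebra (RootAlg p (Sb p k r) a) (WittVector p d.C) := f.toRingHom.toAlgebra
  have hst : IsScalarTower (Sb p k r) (RootAlg p (Sb p k r) a) (WittVector p d.C) :=
    IsScalarTower.of_algebraMap_eq fun s => (f.commutes s).symm
  obtain ⟨T, hT1, hT2⟩ := exists_rootTower p (Sb p k r) a
  obtain ⟨θ, hθ⟩ := exists_vW_equiv (p := p) (k := k) (r := r) (C := d.C)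
  let 𝔪 : Ideal (Sb p k r) := RingHom.ker (sk p k r)
  have h𝔪 : 𝔪.IsMaximal := RingHom.ker_isMaximal_of_surjective _ sk_surj
  have hsm : ∀ (y : RootAlg p (Sb p k r) a) (z : WittVector p d.C ⧸ vW p k r d.C),
      y • z = Ideal.Quotient.mk _ (f y) * z := fun y z => Algebra.smul_def y z
  have hsmS : ∀ (s : Sb p k r) (z : WittVector p d.C ⧸ vW p k r d.C),
      s • z = Ideal.Quotient.mk _ (sW p k r d.C s) * z := fun s z => Algebra.smul_def s z
  have hkill : ∀ s ∈ 𝔪, ∀ x : WittVector p d.C ⧸ vW p k r d.C, s • x = 0 := by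
    intro s hs x
    have h1 : Ideal.Quotient.mk (vW p k r d.C) (sW p k r d.C s) = 0 := by
      apply θ.injective
      rw [hθ, mk_sW, map_zero, RingHom.mem_ker.1 hs, map_zero]
    rw [hsmS, h1, zero_mul]
  have hlf : LFr (Sb p k r) (RootAlg p (Sb p k r) a) (WittVector p d.C)
      (WittVector p d.C ⧸ vW p k r d.C) := by
    refine lfr_of_smul_eq_zero _ 𝔪 ?_ _ fun s hs x => ?_
    · rw [length_residue 𝔪]
      exact ENat.one_ne_top
    · have h1 := hkill s hs x
      rw [← h1, ← algebraMap_smul (WittVector p d.C) s x]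
      congr 1
      exact f.commutes s
  have hL0 : (T.totLen (WittVector p d.C)).len (WittVector p d.C ⧸ vW p k r d.C) =
      T.lam (WittVector p d.C ⧸ vW p k r d.C) := by
    rw [T.totLen_eq _ _ hlf, T.lenR_eq]
  -- Teichmueller
  let ω : d.C →+* WittVector p d.C ⧸ vW p k r d.C :=
    { toFun := fun c => Ideal.Quotient.mk _ (teichmuller p c)
      map_one' := by rw [map_one, map_one]
      map_mul' := fun a b => by rw [map_mul, map_mul]
      map_zero' := by rw [teichmuller_zero, map_zero]
      map_add' := fun a b => by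
        rw [← map_add, Ideal.Quotient.eq]
        exact te_add_sub_mem a b }
  have hω : ∀ c, ω c = Ideal.Quotient.mk _ (teichmuller p c) := fun c => rfl
  have hωs : Function.Surjective ω := by
    intro z
    obtain ⟨x, rfl⟩ := Ideal.Quotient.mk_surjective z
    refine ⟨x.coeff 0, ?_⟩
    apply θ.injective
    rw [hω, hθ, hθ, teichmuller_coeff_zero]
  have hωr : ∀ i e, ω (rt p e (xC p k r d.C i)) =
      Ideal.Quotient.mk _ (f (rx p (Sb p k r) a i e)) := by
    intro i e
    rw [hω, hf]
  have hωx : ∀ l, ω (xC p k r d.C l) = 0 := by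
    intro l
    rw [hω, Ideal.Quotient.eq_zero_iff_mem]
    exact Ideal.subset_span (Set.mem_insert_of_mem _ ⟨l, rfl⟩)
  -- upper bound
  have hup : T.lam (WittVector p d.C ⧸ vW p k r d.C) ≤ r0 := by
    refine lam_le_of_cover 𝔪 T hkill (∅, 0) (fun i => ⟨Finset.empty_subset _, Nat.zero_le _⟩)
      ?_ ?_ r0 fun X hX' => ?_
    · rw [hT1, rsub]
      simp
    · rw [hT2]
      simp
    · obtain ⟨s, rfl⟩ := hX'
      choose c hc using hωs
      obtain ⟨v, hv⟩ := d.fin (s.image c)
      refine ⟨fun j => ω (v j), Submodule.span_le.mpr fun x hx => ?_⟩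
      have h3 : ∀ y ∈ Submodule.span (Rp p k r) (Set.range v),
          ω y ∈ Submodule.span (RootAlg p (Sb p k r) a) (Set.range fun j => ω (v j)) := by
        intro y hy
        induction hy using Submodule.span_induction with
        | mem y hy =>
          obtain ⟨j, rfl⟩ := hy
          exact Submodule.subset_span ⟨j, rfl⟩
        | zero => rw [map_zero]; exact zero_mem _
        | add y z _ _ hy hz => rw [map_add]; exact add_mem hy hz
        | smul g y _ hy =>
          have h4 := range_gen' (ω.comp (algebraMap (Rp p k r) d.C)) (fun l => hωx l)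
            ((Ideal.Quotient.mk (vW p k r d.C)).comp f.toRingHom).range
            (fun y => ⟨algebraMap (Sb p k r) (RootAlg p (Sb p k r) a)
                (MvPolynomial.C (teichmuller p y)), by
              change Ideal.Quotient.mk _ (f (algebraMap (Sb p k r) (RootAlg p (Sb p k r) a) _)) = _
              rw [f.commutes]
              change Ideal.Quotient.mk _ (sW p k r d.C _) = _
              rw [sW_C, map_teichmuller]
              rfl⟩)
            (fun e l => ⟨rx p (Sb p k r) a l e, by
              change Ideal.Quotient.mk _ (f _) = ω (algebraMap _ _ (rt p e (xp p k r l)))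
              rw [← hωr]
              exact congrArg ω (rt_map (algebraMap (Rp p k r) d.C) e (xp p k r l)).symm⟩) g
          obtain ⟨z, hz⟩ := h4
          rw [Algebra.smul_def, map_mul]
          change ω.comp (algebraMap (Rp p k r) d.C) g * _ ∈ _
          rw [← hz]
          change Ideal.Quotient.mk _ (f z) * ω y ∈ _
          rw [← hsm]
          exact Submodule.smul_mem _ _ hy
      have h5 := h3 (c x) (hv (Finset.mem_coe.mpr (Finset.mem_image_of_mem c hx)))
      rwa [hc] at h5
  -- lower bound
  have hlow : 1 ≤ T.lam (WittVector p d.C ⧸ vW p k r d.C) := by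
    refine one_le_lam 𝔪 T 1 fun i => ?_
    obtain ⟨F, e⟩ := i
    have hq : 0 < p ^ e := pow_pos (Fact.out : p.Prime).pos e
    refine ⟨ULift.{u} (F → Fin (p ^ e)), inferInstance, fun φ =>
      (toBx F (p ^ e) hq φ.down).1.prod fun i m => rx p (Sb p k r) a i e ^ m, ?_, fun φ => ?_,
      fun c hc => ?_⟩
    · rw [hT2, Fintype.card_ulift, Fintype.card_fun, Fintype.card_fin, Fintype.card_coe, pow_mul]
    · rw [hT1]
      exact prod_mem fun i hi => pow_mem (rx_mem_rsub p (Sb p k r) a
        (toBx_support F _ hq φ.down i hi)) _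
    · let _ : Algebra k (d.C ⧸ vI p k r d.C) := (kCb p k r d.C).toAlgebra
      have hli := (li_k d e).comp (fun φ : ULift.{u} (F → Fin (p ^ e)) =>
        toBx F (p ^ e) hq φ.down) fun x y h => ULift.down_injective (toBx_injective F _ hq h)
      have hli2 := Fintype.linearIndependent_iff.mp hli (fun φ => sk p k r (c φ)) ?_ 
      · exact fun φ => hli2 φ
      have h6 := congrArg θ hc
      rw [map_zero, map_sum] at h6
      rw [← h6]
      refine Finset.sum_congr rfl fun φ _ => ?_
      rw [hsmS, hsm, mul_one, map_mul, hθ, mk_sW, Algebra.smul_def]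
      refine congrArg₂ _ rfl ?_
      have h7 : f ((toBx F (p ^ e) hq φ.down).1.prod fun i m => rx p (Sb p k r) a i e ^ m) =
          teichmuller p (∏ l, rt p e (vC p k r d.C l) ^ (toBx F (p ^ e) hq φ.down).1 l) := by
        rw [Finsupp.prod_fintype _ _ (fun i => pow_zero _), map_prod, map_prod]
        refine Finset.prod_congr rfl fun l _ => ?_
        rw [map_pow, hf, map_pow]
        rfl
      rw [h7, hθ, teichmuller_coeff_zero]
      rfl
  have h0 : T.lam (WittVector p d.C ⧸ vW p k r d.C) ≠ 0 := (zero_lt_one.trans_le hlow).ne'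
  have htop : T.lam (WittVector p d.C ⧸ vW p k r d.C) ≠ ⊤ :=
    ne_top_of_le_ne_top (ENNReal.natCast_ne_top r0) hup
  refine ⟨(T.totLen (WittVector p d.C)).divc (T.lam (WittVector p d.C ⧸ vW p k r d.C)), ?_⟩
  change (T.totLen (WittVector p d.C)).len (WittVector p d.C ⧸ vW p k r d.C) / _ = 1
  rw [hL0, ENNReal.div_self h0 htop]

end Main

end Vale.Agent.P177.Lev
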