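import Vale.Agent.P202.Mix.GammaForm

/-!
P177, block LEV: the form of `δ + δ'` (after P202 `gamma_form`, without hypotheses on the ring).
-/

namespace Vale.Agent.P177.Lev

open Polynomial Vale.Agent.P202.Mix
open scoped ENNReal

universe u

variable {p : ℕ} [Fact p.Prime] {k : Type u} [Field k] [CharP k p] {r : ℕ}
variable {Λ : Type u} [CommRing Λ] {u : Fin r → Λ}
  {ψ : Λ →+* WittVector p (Rp p k r)}
  {red : Λ →+* R0 k r ⧸ Ideal.span {(MvPowerSeries.X 0 : R0 k r)}}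

/-- TASK M15a: the form of `γ = δ + δ'`. -/
theorem gamma_form1 (hb : IsBase p k r Λ u ψ red) (g : Λ)
    (hg : ∃ (a : ℕ) (g' : Λ), g = (p : Λ) ^ a * g' ∧ g' ∉ Ideal.span {(p : Λ)}) :
    ∃ (a : ℕ) (g' : R0 k r) (I0 : ℕ), g' ∉ Ideal.span {(MvPowerSeries.X 0 : R0 k r)} ∧
      ∀ {s D : ℕ} (F : Fin s → Λ[X]) (E : MvPolynomial (Fin s) Λ),
        (E * (E - MvPolynomial.C g) ∈
          Ideal.span (Set.range fun j => Polynomial.toMvPolynomial j (F j))) →
        ∀ (I r0 : ℕ) (_ : I0 ≤ I) (d : CData.{u} ψ (D := D) F E g I r0) (π : Fin s → Fin D),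
          ∃ x : d.C, d.δ π + d.δ' π = tC p k r d.C ^ a *
            (algebraMap (Rp p k r) d.C (PerfectClosure.of (R0 k r) p g') +
              rt p 1 (tC p k r d.C) * x) := by
  obtain ⟨a, g', hgg, hg'⟩ := hg
  obtain ⟨g0, y, hred, hcoeff⟩ := hb.red_coeff g'
  refine ⟨a, g0, a * p ^ (a + 1) + a, fun h0 => hg' (hb.red_ker g' ?_), ?_⟩
  · rw [hred, Ideal.Quotient.eq_zero_iff_mem]
    exact h0
  intro s D F E h1 I r0 hI d π
  obtain ⟨Eπ, hEπ⟩ : ∃ z, z = MvPolynomial.eval₂ (laB ψ d.C)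
    (fun j => te p d.C (tC p k r d.C) (d.c j (π j))) E := ⟨_, rfl⟩
  have hδ := d.hδ π
  have hδ' := d.hδ' π
  rw [← hEπ] at hδ hδ'
  -- the relation
  have hrel : Eπ * (Eπ - laB ψ d.C g) ∈
      Ideal.span {(p : Bt p d.C (tC p k r d.C)) ^ (I + 1)} := by
    have h2 : Ideal.span (Set.range fun j => Polynomial.toMvPolynomial j (F j)) ≤
        (Ideal.span {(p : Bt p d.C (tC p k r d.C)) ^ (I + 1)}).comap
          (MvPolynomial.eval₂Hom (laB ψ d.C)
            (fun j => te p d.C (tC p k r d.C) (d.c j (π j)))) := by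
      rw [Ideal.span_le]
      rintro _ ⟨j, rfl⟩
      rw [SetLike.mem_coe, Ideal.mem_comap]
      have h3 : MvPolynomial.eval₂Hom (laB ψ d.C)
          (fun j => te p d.C (tC p k r d.C) (d.c j (π j))) (Polynomial.toMvPolynomial j (F j)) =
          ((F j).map (laB ψ d.C)).eval (te p d.C (tC p k r d.C) (d.c j (π j))) := by
        rw [Polynomial.eval_map]
        show MvPolynomial.eval₂Hom _ _ (Polynomial.aeval (MvPolynomial.X j) (F j)) = _
        rw [Polynomial.aeval_def, Polynomial.hom_eval₂]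
        congr 1
        · ext z
          simp
        · simp
      rw [h3]
      exact gf_eval _ _ (fun i => te p d.C (tC p k r d.C) (d.c j i)) (d.split j) (π j)
    have h4 := h2 h1
    rw [Ideal.mem_comap, map_mul, map_sub] at h4
    have h5 : MvPolynomial.eval₂Hom (laB ψ d.C)
        (fun j => te p d.C (tC p k r d.C) (d.c j (π j))) E = Eπ := by rw [hEπ]; rfl
    have h6 : MvPolynomial.eval₂Hom (laB ψ d.C)
        (fun j => te p d.C (tC p k r d.C) (d.c j (π j))) (MvPolynomial.C g) = laB ψ d.C g := by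
      simp
    rw [h5, h6] at h4
    exact h4
  have hG : laB ψ d.C g = (p : Bt p d.C (tC p k r d.C)) ^ a *
      toB p d.C (tC p k r d.C) (WittVector.map (algebraMap (Rp p k r) d.C) (ψ g')) := by
    have h := congrArg (laB ψ d.C) hgg
    rw [map_mul, map_pow, map_natCast] at h
    exact h
  rw [hG] at hrel hδ'
  refine gf_main p d.C (tC p k r d.C) (gf_tC d.toPExt) (d.δ π) (d.δ' π)
    (WittVector.map (algebraMap (Rp p k r) d.C) (ψ g')) _ (algebraMap (Rp p k r) d.C y) ?_ a I hI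
    ?_ ?_ ?_
  · rw [WittVector.map_coeff, hcoeff, map_add, map_mul]
  · obtain ⟨ε, hε⟩ : ∃ ε, ε = te p d.C (tC p k r d.C) (d.δ π) - Eπ := ⟨_, rfl⟩
    rw [← hε] at hδ
    have h1 : te p d.C (tC p k r d.C) (d.δ π) = Eπ + ε := by rw [hε]; ring
    rw [h1]
    generalize (p : Bt p d.C (tC p k r d.C)) ^ a *
      toB p d.C (tC p k r d.C) (WittVector.map (algebraMap (Rp p k r) d.C) (ψ g')) = G at hrel ⊢
    have h2 : (Eπ + ε) * (Eπ + ε) - G * (Eπ + ε) = Eπ * (Eπ - G) + ε * (2 * Eπ + ε - G) := by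
      ring
    rw [h2]
    exact add_mem hrel (Ideal.mul_mem_right _ _ hδ)
  · generalize (p : Bt p d.C (tC p k r d.C)) ^ a *
      toB p d.C (tC p k r d.C) (WittVector.map (algebraMap (Rp p k r) d.C) (ψ g')) = G
      at hrel hδ' ⊢
    obtain ⟨ε, hε⟩ : ∃ ε, ε = te p d.C (tC p k r d.C) (d.δ' π) - (G - Eπ) := ⟨_, rfl⟩
    rw [← hε] at hδ'
    have h1 : te p d.C (tC p k r d.C) (d.δ' π) = G - Eπ + ε := by rw [hε]; ring
    rw [h1]
    have h2 : (G - Eπ + ε) * (G - Eπ + ε) - G * (G - Eπ + ε) =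
        Eπ * (Eπ - G) + ε * (G - 2 * Eπ + ε) := by
      ring
    rw [h2]
    exact add_mem hrel (Ideal.mul_mem_right _ _ hδ')
  · generalize (p : Bt p d.C (tC p k r d.C)) ^ a *
      toB p d.C (tC p k r d.C) (WittVector.map (algebraMap (Rp p k r) d.C) (ψ g')) = G
      at hδ' ⊢
    have h2 := add_mem hδ hδ'
    have h3 : te p d.C (tC p k r d.C) (d.δ π) - Eπ +
        (te p d.C (tC p k r d.C) (d.δ' π) - (G - Eπ)) =
        te p d.C (tC p k r d.C) (d.δ π) + te p d.C (tC p k r d.C) (d.δ' π) - G := by ring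
    rwa [h3] at h2

end Vale.Agent.P177.Lev
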