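import Vale.Agent.P202.Mix.Idem

/-!
P177, block LEV: the polynomials attached to finitely many integral elements.
-/

namespace Vale.Agent.P177.Lev

open Polynomial Vale.Agent.P202.Mix IsLocalRing

universe u

theorem exists_poly {Λ : Type u} [CommRing Λ] [IsDomain Λ] [IsLocalRing Λ]
    (hm : maximalIdeal Λ ≠ ⊥) {Ω : Type u} [Field Ω] [CharZero Ω] [Algebra Λ Ω]
    (hinj : Function.Injective (algebraMap Λ Ω)) {s : ℕ} (b : Fin s → Ω) (F : Fin s → Λ[X])
    (hF : ∀ l, (F l).Monic) (hFb : ∀ l, aeval (b l) (F l) = 0) (nz : Finset (Fin s))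
    (hnz : ∀ l ∈ nz, b l ≠ 0) :
    ∃ (D : ℕ) (G : Fin s → Λ[X]) (E : MvPolynomial (Fin s) Λ) (g g3 : Λ)
      (Y : MvPolynomial (Fin s) Λ), (∀ l, (G l).Monic) ∧ (∀ l, (G l).natDegree = D) ∧
      (∀ l, aeval (b l) (G l) = 0) ∧
      (∀ l, (∀ i < (F l).natDegree, (F l).coeff i ∈ maximalIdeal Λ) →
        ∀ i < D, (G l).coeff i ∈ maximalIdeal Λ) ∧
      g ≠ 0 ∧ g3 ≠ 0 ∧ MvPolynomial.aeval b E = algebraMap Λ Ω g ∧
      (∀ f : MvPolynomial (Fin s) Λ, MvPolynomial.aeval b f = 0 →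
        E * f ∈ Ideal.span (Set.range fun j => Polynomial.toMvPolynomial j (G j))) ∧
      MvPolynomial.aeval b (MvPolynomial.C g3 -
        (∏ l, Polynomial.toMvPolynomial l (derivative (G l))) *
          (∏ l ∈ nz, MvPolynomial.X l) * Y) = 0 := by
  classical
  let A : Subalgebra Λ Ω := Algebra.adjoin Λ (Set.range b)
  let a : Fin s → A := fun l => ⟨b l, Algebra.subset_adjoin ⟨l, rfl⟩⟩
  have hint : ∀ l, IsIntegral Λ (b l) := fun l => ⟨F l, hF l, hFb l⟩
  have hfin : Module.Finite Λ A := by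
    have h : (Subalgebra.toSubmodule A).FG :=
      fg_adjoin_of_finite (Set.finite_range b) (by rintro _ ⟨l, rfl⟩; exact hint l)
    exact Module.Finite.iff_fg.2 h
  have hAinj : Function.Injective (algebraMap Λ A) := by
    intro x y h
    apply hinj
    exact congrArg (fun z : A => (z : Ω)) h
  have hcz : CharZero A := by
    refine ⟨fun m n h => ?_⟩
    have h2 : (m : Ω) = (n : Ω) := congrArg (fun z : A => (z : Ω)) h
    exact_mod_cast h2
  have hav : ∀ f : MvPolynomial (Fin s) Λ, ((MvPolynomial.aeval a f : A) : Ω) =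
      MvPolynomial.aeval b f := by
    intro f
    exact MvPolynomial.comp_aeval_apply a A.val f
  have hav0 : ∀ f : MvPolynomial (Fin s) Λ, MvPolynomial.aeval a f = 0 ↔
      MvPolynomial.aeval b f = 0 := by
    intro f
    rw [← hav, ZeroMemClass.coe_eq_zero]
  have hpv : ∀ (l : Fin s) (f : Λ[X]), ((aeval (a l) f : A) : Ω) = aeval (b l) f := by
    intro l f
    exact (Polynomial.aeval_algHom_apply A.val (a l) f).symm
  have hpv0 : ∀ (l : Fin s) (f : Λ[X]), aeval (a l) f = 0 ↔ aeval (b l) f = 0 := by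
    intro l f
    rw [← hpv, ZeroMemClass.coe_eq_zero]
  have ha : Algebra.adjoin Λ (Set.range a) = ⊤ := by
    have h1 : Set.range a = ((↑) : A → Ω) ⁻¹' (Set.range b) := by
      ext x
      constructor
      · rintro ⟨l, rfl⟩
        exact ⟨l, rfl⟩
      · rintro ⟨l, hl⟩
        exact ⟨l, Subtype.ext hl⟩
    rw [h1]
    exact Algebra.adjoin_adjoin_coe_preimage
  -- the polynomials `G`
  have hG : ∀ l, ∃ D0 : ℕ, ∀ D, D0 ≤ D → ∃ G : Λ[X], G.Monic ∧ G.natDegree = D ∧
      ((∀ i < (F l).natDegree, (F l).coeff i ∈ maximalIdeal Λ) →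
        ∀ i < D, G.coeff i ∈ maximalIdeal Λ) ∧
      aeval (a l) G = 0 ∧ aeval (a l) (derivative G) ≠ 0 := by
    intro l
    by_cases hl : ∀ i < (F l).natDegree, (F l).coeff i ∈ maximalIdeal Λ
    · have h1 : a l ^ (F l).natDegree ∈ (maximalIdeal Λ).map (algebraMap Λ A) := by
        have h2 : aeval (a l) (F l) = 0 := (hpv0 l _).2 (hFb l)
        rw [Polynomial.aeval_eq_sum_range, Finset.sum_range_succ, (hF l).coeff_natDegree,
          one_smul, ← eq_neg_iff_add_eq_zero] at h2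
        rw [← neg_neg (a l ^ (F l).natDegree), ← h2]
        refine neg_mem (Ideal.sum_mem _ fun i hi => ?_)
        rw [Algebra.smul_def]
        exact Ideal.mul_mem_right _ _ (Ideal.mem_map_of_mem _ (hl i (Finset.mem_range.1 hi)))
      obtain ⟨D0, h⟩ := exists_simple_root hAinj (maximalIdeal Λ) hm (a l) _ h1
      refine ⟨D0, fun D hD => ?_⟩
      obtain ⟨G, h1, h2, h3, h4, h5⟩ := h D hD
      exact ⟨G, h1, h2, fun _ => h3, h4, h5⟩
    · obtain ⟨D0, h⟩ := exists_simple_root hAinj ⊤ (by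
        intro h
        exact hm (le_bot_iff.1 (le_top.trans h.le))) (a l) 0 (by
          rw [Ideal.map_top]
          trivial)
      refine ⟨D0, fun D hD => ?_⟩
      obtain ⟨G, h1, h2, h3, h4, h5⟩ := h D hD
      exact ⟨G, h1, h2, fun h => absurd h hl, h4, h5⟩
  choose D0 hG using hG
  let D : ℕ := ∑ l, D0 l
  have hD : ∀ l, D0 l ≤ D := fun l => Finset.single_le_sum (fun _ _ => Nat.zero_le _)
    (Finset.mem_univ l)
  choose G h1 h2 h3 h4 h5 using fun l => hG l D (hD l)
  obtain ⟨g, E, hg, hE1, hE2⟩ := exists_idem hAinj a ha G h1 h4 h5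
  -- the discriminant
  let z : A := (∏ l, aeval (a l) (derivative (G l))) * ∏ l ∈ nz, a l
  have hz : z ≠ 0 := by
    refine mul_ne_zero (Finset.prod_ne_zero_iff.2 fun l _ => h5 l)
      (Finset.prod_ne_zero_iff.2 fun l hl h => hnz l hl ?_)
    exact congrArg (fun z : A => (z : Ω)) h
  have hcomap : (Ideal.span {z}).comap (algebraMap Λ A) ≠ ⊥ :=
    Ideal.comap_ne_bot_of_integral_mem hz (Ideal.mem_span_singleton_self z)
      (Algebra.IsIntegral.isIntegral z)
  obtain ⟨g3, hg3, hg30⟩ := Submodule.exists_mem_ne_zero_of_ne_bot hcomap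
  obtain ⟨y, hy⟩ := Ideal.mem_span_singleton'.1 (Ideal.mem_comap.1 hg3)
  have hsurj : Function.Surjective (MvPolynomial.aeval a : MvPolynomial (Fin s) Λ →ₐ[Λ] A) := by
    rw [← AlgHom.range_eq_top, ← Algebra.adjoin_range_eq_range_aeval, ha]
  obtain ⟨Y, rfl⟩ := hsurj y
  refine ⟨D, G, E, g, g3, Y, h1, h2, fun l => (hpv0 l _).1 (h4 l), h3, hg, hg30, ?_, ?_, ?_⟩
  · rw [← hav, hE1]
    rfl
  · intro f hf
    exact hE2 f ((hav0 f).2 hf)
  · rw [← hav0, map_sub, MvPolynomial.aeval_C, ← hy, map_mul, map_mul, map_prod, map_prod]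
    have h6 : ∀ l, MvPolynomial.aeval a (Polynomial.toMvPolynomial l (derivative (G l))) =
        aeval (a l) (derivative (G l)) := by
      intro l
      rw [Polynomial.toMvPolynomial]
      have h7 := Polynomial.aeval_algHom_apply (MvPolynomial.aeval a :
        MvPolynomial (Fin s) Λ →ₐ[Λ] A) (MvPolynomial.X l) (derivative (G l))
      rw [MvPolynomial.aeval_X] at h7
      exact h7.symm
    simp only [h6, MvPolynomial.aeval_X]
    change _ * z - z * _ = 0
    ring

end Vale.Agent.P177.Lev
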