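import Vale.Agent.P202.Mix.Build

/-!
P177, block LEV: the covers of P202 with one more Teichmueller representative.
-/

namespace Vale.Agent.P177.Lev

open Polynomial Vale.Agent.P202.Mix

universe u

section XD
variable {p : ℕ} [Fact p.Prime] {k : Type u} [Field k] [CharP k p] {r : ℕ}

/-- existence of the covers, with a Teichmueller representative of `g3`. -/
theorem exists_xdata {Λ : Type u} [CommRing Λ] (ψ : Λ →+* WittVector p (Rp p k r)) {s D : ℕ}
    (F : Fin s → Λ[X]) (hF : ∀ j, (F j).Monic) (hD : ∀ j, (F j).natDegree = D)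
    (E : MvPolynomial (Fin s) Λ) (g g3 : Λ) (I : ℕ) :
    ∃ (r0 : ℕ) (d : CData.{u} ψ (D := D) F E g I r0) (γ : d.C),
      te p d.C (tC p k r d.C) γ - laB ψ d.C g3 ∈
        Ideal.span {(p : Bt p d.C (tC p k r d.C)) ^ (I + 1)} := by
  classical
  obtain ⟨r1, h1⟩ := _root_.P202.Mix.exists_split_family.{u} (p := p) I D s
  obtain ⟨r2, h2⟩ := _root_.P202.Mix.exists_teich.{u} (p := p) I
    (Fintype.card (Option (Bool × (Fin s → Fin D))))
  refine ⟨r1 * r2, ?_⟩
  have hnt := nontrivial_Rp p k r
  have hnt' : Nontrivial (WittVector p (Rp p k r)) := inferInstance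
  obtain ⟨C1, i1, i2, i3, i4, i5, c1, a1, a2, a3, a4⟩ := h1 (xp p k r 0)
    (xp_mem_nonZeroDivisors p k r 0) (xp_mem_jacobson p k r 0) (fun j => (F j).map ψ)
    (fun j => (hF j).map _) (fun j => by rw [(hF j).natDegree_map, hD])
  let e := Fintype.equivFin (Option (Bool × (Fin s → Fin D)))
  let ψ1 : Λ →+* WittVector p C1 := (WittVector.map (algebraMap (Rp p k r) C1)).comp ψ
  let f1 : (Fin s → Fin D) → WittVector p C1 := fun π =>
    MvPolynomial.eval₂ ψ1 (fun j => WittVector.teichmuller p (c1 j (π j))) E
  let f : Option (Bool × (Fin s → Fin D)) → WittVector p C1 := fun z =>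
    match z with
    | none => ψ1 g3
    | some z => if z.1 then f1 z.2 else ψ1 g - f1 z.2
  obtain ⟨C2, j1, j2, j3, j4, j5, d, b1, b2, b3, b4⟩ := h2 (algebraMap (Rp p k r) C1 (xp p k r 0))
    a2 a3 (fun m => f (e.symm m))
  let alg : Algebra (Rp p k r) C2 := ((algebraMap C1 C2).comp (algebraMap (Rp p k r) C1)).toAlgebra
  have tow : IsScalarTower (Rp p k r) C1 C2 := IsScalarTower.of_algebraMap_eq fun _ => rfl
  have hG := a1.trans b1
  let P : PExt p k r (r1 * r2) :=
    { C := C2, flat := hG.flat, integral := hG.integral, inj := hG.inj, fin := hG.gen }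
  have htC : tC p k r C2 = algebraMap C1 C2 (algebraMap (Rp p k r) C1 (xp p k r 0)) := rfl
  have hψ : (WittVector.map (algebraMap (Rp p k r) C2)).comp ψ =
      (WittVector.map (algebraMap C1 C2)).comp ψ1 := by
    rw [← RingHom.comp_assoc, _root_.P202.Mix.map_map_comp]
    rfl
  -- the evaluation of `E`
  have hE : ∀ π : Fin s → Fin D,
      MvPolynomial.eval₂ (laB ψ C2) (fun j => te p C2 (tC p k r C2) (algebraMap C1 C2 (c1 j (π j)))) E
        = toB p C2 (tC p k r C2) (WittVector.map (algebraMap C1 C2) (f1 π)) := by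
    intro π
    have h5 := MvPolynomial.eval₂_comp_left
      ((toB p C2 (tC p k r C2)).comp (WittVector.map (algebraMap C1 C2))) ψ1
      (fun j => WittVector.teichmuller p (c1 j (π j))) E
    have h6 : (toB p C2 (tC p k r C2)) (WittVector.map (algebraMap C1 C2) (f1 π)) =
      ((toB p C2 (tC p k r C2)).comp (WittVector.map (algebraMap C1 C2))) (f1 π) := rfl
    rw [h6, h5]
    have h7 : laB ψ C2 =
        ((toB p C2 (tC p k r C2)).comp (WittVector.map (algebraMap C1 C2))).comp ψ1 := by
      rw [laB, hψ, RingHom.comp_assoc]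
    rw [h7]
    congr 1
    funext j
    change toB p C2 (tC p k r C2) (WittVector.teichmuller p (algebraMap C1 C2 (c1 j (π j)))) =
      toB p C2 (tC p k r C2) (WittVector.map (algebraMap C1 C2)
        (WittVector.teichmuller p (c1 j (π j))))
    rw [WittVector.map_teichmuller]
  have hla : ∀ l, laB ψ C2 l =
      toB p C2 (tC p k r C2) (WittVector.map (algebraMap C1 C2) (ψ1 l)) := by
    intro l
    have h := RingHom.congr_fun hψ l
    exact congrArg (toB p C2 (tC p k r C2)) h
  have h8 : te p C2 (tC p k r C2) (d (e none)) - laB ψ C2 g3 ∈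
      Ideal.span {(p : Bt p C2 (tC p k r C2)) ^ (I + 1)} := by
    have h5 := toB_mem (p := p) _ I (b4 (e none))
    rw [map_sub, e.symm_apply_apply] at h5
    rw [hla]
    exact h5
  refine ⟨{ toPExt := P, c := fun j i => algebraMap C1 C2 (c1 j i),
            δ := fun π => d (e (some (true, π))), δ' := fun π => d (e (some (false, π))),
            split := ?_, hδ := ?_, hδ' := ?_ }, d (e none), ?_⟩
  · intro j n
    have h5 := (Ideal.mem_map_C_iff.1 (a4 j)) n
    have h6 := _root_.P202.Mix.map_mem_JJ (algebraMap C1 C2) _ I h5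
    have h7 := toB_mem (p := p) _ I h6
    have h8 : toB p C2 (tC p k r C2) (WittVector.map (algebraMap C1 C2)
        ((((F j).map ψ).map (WittVector.map (algebraMap (Rp p k r) C1)) -
          ∏ i, (X - Polynomial.C (WittVector.teichmuller p (c1 j i)))).coeff n)) =
        ((F j).map (laB ψ C2) -
          ∏ i, (X - Polynomial.C (te p C2 (tC p k r C2) (algebraMap C1 C2 (c1 j i))))).coeff n := by
      rw [← RingHom.comp_apply, ← Polynomial.coeff_map, Polynomial.map_sub, Polynomial.map_prod,
        Polynomial.map_map, Polynomial.map_map]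
      have h9 : (((toB p C2 (tC p k r C2)).comp (WittVector.map (algebraMap C1 C2))).comp
          (WittVector.map (algebraMap (Rp p k r) C1))).comp ψ = laB ψ C2 := by
        rw [laB, hψ]
        rfl
      have h10 : ∏ i, Polynomial.map
          ((toB p C2 (tC p k r C2)).comp (WittVector.map (algebraMap C1 C2)))
          (X - Polynomial.C (WittVector.teichmuller p (c1 j i))) =
          ∏ i, (X - Polynomial.C (te p C2 (tC p k r C2) (algebraMap C1 C2 (c1 j i)))) := by
        refine Finset.prod_congr rfl fun i _ => ?_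
        rw [Polynomial.map_sub, Polynomial.map_X, Polynomial.map_C, RingHom.comp_apply,
          WittVector.map_teichmuller]
        rfl
      rw [h9, h10]
    rw [← h8]
    exact h7
  · intro π
    have h5 := toB_mem (p := p) _ I (b4 (e (some (true, π))))
    rw [map_sub] at h5
    have h6 : f (e.symm (e (some (true, π)))) = f1 π := by rw [e.symm_apply_apply]; rfl
    rw [h6] at h5
    rw [hE π]
    exact h5
  · intro π
    have h5 := toB_mem (p := p) _ I (b4 (e (some (false, π))))
    rw [map_sub] at h5
    have h6 : f (e.symm (e (some (false, π)))) = ψ1 g - f1 π := by rw [e.symm_apply_apply]; rfl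
    rw [h6, map_sub, map_sub] at h5
    have h7 : laB ψ C2 g = toB p C2 (tC p k r C2) (WittVector.map (algebraMap C1 C2) (ψ1 g)) := by
      rw [laB, hψ]
      rfl
    rw [hE π, h7]
    exact h5
  · exact h8

end XD

end Vale.Agent.P177.Lev
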