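import Vale.Agent.P177.Lev.PosF
import Vale.Agent.P177.Lev.Poly
import Vale.Agent.P177.Lev.XData
import Vale.Agent.P177.Lev.Gamma

/-!
P177, block LEV: existence of the levels.
-/

namespace Vale.Agent.P177.Lev

open Vale.Agent.P202.Mix Vale.Agent.P202.Mix.UL WittVector IsLocalRing
open scoped ENNReal Polynomial

universe u

variable {p : ℕ} [Fact p.Prime] {k : Type u} [Field k] [CharP k p] {r : ℕ}

section

variable {Λ : Type u} [CommRing Λ] {ψ : Λ →+* WittVector p (Rp p k r)}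
variable {s D : ℕ} {G : Fin s → Polynomial Λ} {E : MvPolynomial (Fin s) Λ} {g : Λ} {I r0 : ℕ}
  (d : CData.{u} ψ (D := D) G E g I r0)

/-- evaluation at the Teichmueller representatives of the chosen roots. -/
noncomputable def evπ (π : Fin s → Fin D) : MvPolynomial (Fin s) Λ →+* WittVector p d.C :=
  MvPolynomial.eval₂Hom (laW ψ d.C) fun l => teichmuller p (d.c l (π l))

theorem evπ_apply (π : Fin s → Fin D) (f : MvPolynomial (Fin s) Λ) :
    evπ d π f = MvPolynomial.eval₂ (laW ψ d.C) (fun l => teichmuller p (d.c l (π l))) f := rfl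

/-- the product of the derivatives. -/
noncomputable def vπ (π : Fin s → Fin D) : WittVector p d.C :=
  ∏ l, Polynomial.eval₂ (laW ψ d.C) (teichmuller p (d.c l (π l))) (Polynomial.derivative (G l))

theorem disc_aux {nz : Finset (Fin s)} {g3 : Λ} {Y : MvPolynomial (Fin s) Λ} {γ : d.C}
    (hγ : te p d.C (tC p k r d.C) γ - laB ψ d.C g3 ∈
        Ideal.span {(p : Bt p d.C (tC p k r d.C)) ^ (I + 1)})
    (hQ : E * (MvPolynomial.C g3 -
        (∏ l, Polynomial.toMvPolynomial l (Polynomial.derivative (G l))) *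
          (∏ l ∈ nz, MvPolynomial.X l) * Y) ∈
      Ideal.span (Set.range fun j => Polynomial.toMvPolynomial j (G j)))
    (π : Fin s → Fin D) :
    teichmuller p (d.δ π * γ) - teichmuller p (∏ l ∈ nz, d.c l (π l)) *
      (teichmuller p (d.δ π) * vπ d π * evπ d π Y) ∈ xiM p k r d.C (I + 1) := by
  have h1 : teichmuller p γ - laW ψ d.C g3 ∈ xiM p k r d.C (I + 1) := by
    rw [mem_xiM_iff, map_sub]
    exact hγ
  have h2 := rel_of d π hQ
  rw [← evπ_apply, map_sub, map_mul, map_mul, map_prod, map_prod] at h2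
  have h3 : evπ d π (MvPolynomial.C g3) = laW ψ d.C g3 := MvPolynomial.eval₂Hom_C _ _ _
  have h4 : ∏ l, evπ d π (Polynomial.toMvPolynomial l (Polynomial.derivative (G l))) =
      vπ d π := Finset.prod_congr rfl fun l _ => eval_toMv (C := d.C) (ψ := ψ) _ l _
  have h5 : ∏ l ∈ nz, evπ d π (MvPolynomial.X l) =
      teichmuller p (∏ l ∈ nz, d.c l (π l)) := by
    rw [map_prod]
    exact Finset.prod_congr rfl fun l _ => MvPolynomial.eval₂Hom_X' _ _ _
  rw [h3, h4, h5] at h2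
  have h6 := add_mem h2 (Ideal.mul_mem_left _ (teichmuller p (d.δ π)) h1)
  convert h6 using 1
  rw [map_mul]
  ring

end

section

variable {Λ : Type u} [CommRing Λ] [IsDomain Λ] [IsLocalRing Λ] [IsNoetherianRing Λ]
  {u : Fin r → Λ} {ψ : Λ →+* WittVector p (Rp p k r)}
  {red : Λ →+* R0 k r ⧸ Ideal.span {(MvPowerSeries.X 0 : R0 k r)}}

omit [Fact p.Prime] in
theorem exists_eq_p_pow [CharZero Λ] (hp : (p : Λ) ∈ maximalIdeal Λ) {g : Λ} (hg : g ≠ 0) :
    ∃ (a : ℕ) (g' : Λ), g = (p : Λ) ^ a * g' ∧ g' ∉ Ideal.span {(p : Λ)} := by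
  have h1 : FiniteMultiplicity (p : Λ) g :=
    FiniteMultiplicity.of_not_isUnit ((mem_maximalIdeal _).1 hp) hg
  obtain ⟨c, h2, h3⟩ := h1.exists_eq_pow_mul_and_not_dvd
  exact ⟨_, c, h2, fun h => h3 (Ideal.mem_span_singleton.1 h)⟩

theorem exists_j (N K e : ℕ) : ∃ j, e ≤ j ∧
    (N : ℝ≥0∞) * ((K : ℝ≥0∞) / (p : ℝ≥0∞) ^ j) ≤ 1 / 2 := by
  refine ⟨max e (2 * (N * K)), le_max_left _ _, ?_⟩
  have hp2 : 2 ≤ p := (Fact.out : p.Prime).two_le
  set j := max e (2 * (N * K))
  have h1 : 2 * (N * K) ≤ p ^ j := by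
    calc 2 * (N * K) ≤ j := le_max_right _ _
      _ ≤ 2 ^ j := Nat.lt_two_pow_self.le
      _ ≤ p ^ j := Nat.pow_le_pow_left hp2 j
  have hp0 : ((p : ℝ≥0∞) ^ j) ≠ 0 := pow_ne_zero _ (by exact_mod_cast (by omega : p ≠ 0))
  have hpt : ((p : ℝ≥0∞) ^ j) ≠ ⊤ := ENNReal.pow_ne_top (ENNReal.natCast_ne_top p)
  rw [← mul_div_assoc, ENNReal.div_le_iff hp0 hpt, one_div,
    ← ENNReal.mul_le_iff_le_inv two_ne_zero ENNReal.ofNat_ne_top]
  exact_mod_cast h1

/-- **Existence of the levels.** -/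
theorem exists_level [PerfectRing k p] (hb : IsBase p k r Λ u ψ red)
    (hmax : maximalIdeal Λ = Ideal.span (insert (p : Λ) (Set.range u)))
    {Ω : Type u} [Field Ω] [CharZero Ω] [Algebra Λ Ω]
    (hinj : Function.Injective (algebraMap Λ Ω)) {s : ℕ} (b : Fin s → Ω) (F : Fin s → Λ[X])
    (hF : ∀ l, (F l).Monic) (hFb : ∀ l, Polynomial.aeval (b l) (F l) = 0) :
    ∃ (D : ℕ) (G : Fin s → Λ[X]) (ε : ℝ≥0∞), (∀ l, (G l).Monic) ∧ (∀ l, (G l).natDegree = D) ∧
      (∀ l, Polynomial.aeval (b l) (G l) = 0) ∧ ε ≠ 0 ∧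
      ∀ (Φ : ℕ → ℕ) (e : ℕ), Nonempty (Level ψ b F G D ε Φ e) := by
  classical
  have hcz : CharZero Λ := by
    refine ⟨fun m n h => ?_⟩
    have h2 := congrArg (algebraMap Λ Ω) (show ((m : Λ) : Λ) = (n : Λ) from h)
    rw [map_natCast, map_natCast] at h2
    exact_mod_cast h2
  have hpm : (p : Λ) ∈ maximalIdeal Λ := by
    rw [hmax]
    exact Ideal.subset_span (Set.mem_insert _ _)
  have hm : maximalIdeal Λ ≠ ⊥ := by
    intro h
    rw [h, Ideal.mem_bot, Nat.cast_eq_zero] at hpm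
    exact (Fact.out : p.Prime).ne_zero hpm
  let nz : Finset (Fin s) := Finset.univ.filter fun l => b l ≠ 0
  obtain ⟨D, G, E, g, g3, Y, hGm, hGD, hGb, hGmax, hg0, hg30, hEg, hE, hQ⟩ :=
    exists_poly hm hinj b F hF hFb nz fun l hl => (Finset.mem_filter.1 hl).2
  obtain ⟨a1, g1', I1, hg1', H1⟩ := gamma_form1 hb g (exists_eq_p_pow hpm hg0)
  obtain ⟨C1, hC1⟩ := length_estimate k r g1' hg1'
  obtain ⟨a3, g3', I3, hg3', H3⟩ := gamma_form1 hb g3 (exists_eq_p_pow hpm hg30)
  obtain ⟨C3, hC3⟩ := length_estimate k r g3' hg3'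
  let N := Fintype.card (Fin s → Fin D)
  refine ⟨D, G, 1 / (2 * N), hGm, hGD, hGb, ?_, fun Φ e => ?_⟩
  · rw [one_div]
    exact ENNReal.inv_ne_zero.2 (ENNReal.mul_ne_top ENNReal.ofNat_ne_top
      (ENNReal.natCast_ne_top N))
  obtain ⟨j, hej, hj⟩ := exists_j (p := p) N (p * (3 * (e + 1)) * (a3 + C3) +
    p * (3 * (e + 1)) * (a1 + C1)) e
  let I := Φ j + I1 + I3 + p ^ j
  obtain ⟨r0, d, γ, hγ⟩ := exists_xdata ψ G hGm hGD E g g3 I
  obtain ⟨L, hL⟩ := exists_len_witt d.toPExt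
  have hw := fun π => disc_aux d (nz := nz) hγ (hE _ hQ) π
  have hs1 : ∀ π, SmallForm d.toPExt a1 C1 (d.δ π + d.δ' π) := by
    intro π
    obtain ⟨x, hx⟩ := H1 G E (hE _ (by rw [map_sub, hEg, MvPolynomial.aeval_C, sub_self])) I r0
      (by omega) d π
    exact ⟨g1', x, hC1, hx⟩
  have hs3 : SmallForm d.toPExt a3 C3 γ := by
    let d3 : CData.{u} ψ (s := 0) (D := 0) (fun j => Fin.elim0 j) (MvPolynomial.C g3) g3 I r0 :=
      { toPExt := d.toPExt
        c := fun j => Fin.elim0 j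
        δ := fun _ => γ
        δ' := fun _ => 0
        split := fun j => Fin.elim0 j
        hδ := fun π => by
          rw [MvPolynomial.eval₂_C]
          exact hγ
        hδ' := fun π => by
          rw [MvPolynomial.eval₂_C, sub_self, te_zero, sub_zero]
          exact zero_mem _ }
    obtain ⟨x, hx⟩ := H3 (fun j => Fin.elim0 j) (MvPolynomial.C g3) (by
      rw [sub_self, mul_zero]
      exact zero_mem _) I r0 (by omega) d3 (fun j => Fin.elim0 j)
    refine ⟨g3', x, hC3, ?_⟩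
    rw [← hx]
    exact (add_zero γ).symm
  have key := level_sum d hinj b hGm hGD hGb hEg hE L hL (nz := nz) (γ := γ) _ hw hs1 hs3
    (j := j) (n := e + 1) (by omega) (by omega)
  obtain ⟨π, hπ⟩ : ∃ π, 1 / (2 * N : ℝ≥0∞) ≤ L.len (sm (teichmuller p (rt p j (Thπ d nz γ π)) ^
      (e + 1)) (WittVector p d.C ⧸ vW p k r d.C)) := by
    by_contra hcon
    push Not at hcon
    rw [← ENNReal.add_div, ← Nat.cast_add] at key
    have hσ : ((p * (3 * (e + 1)) * (a3 + C3) + p * (3 * (e + 1)) * (a1 + C1) : ℕ) : ℝ≥0∞) /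
        (p : ℝ≥0∞) ^ j ≠ ⊤ := by
      refine ENNReal.div_ne_top (ENNReal.natCast_ne_top _) (pow_ne_zero _ ?_)
      exact_mod_cast (Fact.out : p.Prime).ne_zero
    generalize hσ0 : ((p * (3 * (e + 1)) * (a3 + C3) + p * (3 * (e + 1)) * (a1 + C1) : ℕ) :
      ℝ≥0∞) / (p : ℝ≥0∞) ^ j = σ at key hσ hj
    rcases isEmpty_or_nonempty (Fin s → Fin D) with hP | hP
    · rw [Finset.univ_eq_empty, Finset.sum_empty] at key
      exact absurd key (by simp)
    · have h4 := ENNReal.sum_lt_sum_of_nonempty (s := (Finset.univ : Finset (Fin s → Fin D)))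
        Finset.univ_nonempty fun π _ => ENNReal.add_lt_add_right hσ (hcon π)
      refine absurd (lt_of_le_of_lt key h4) (not_lt.2 ?_)
      rw [Finset.sum_const, Finset.card_univ, nsmul_eq_mul, mul_add]
      have hN0 : (N : ℝ≥0∞) ≠ 0 := by exact_mod_cast Fintype.card_ne_zero
      have h5 : (N : ℝ≥0∞) * (1 / (2 * N)) = 1 / 2 := by
        rw [← mul_div_assoc, mul_one, mul_comm 2 (N : ℝ≥0∞)]
        conv_lhs => rw [← mul_one (N : ℝ≥0∞), mul_assoc, one_mul]
        exact ENNReal.mul_div_mul_left 1 2 hN0 (ENNReal.natCast_ne_top N)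
      have h6 : (1 : ℝ≥0∞) / 2 + 1 / 2 = 1 := ENNReal.add_halves 1
      change (N : ℝ≥0∞) * (1 / (2 * N)) + (N : ℝ≥0∞) * σ ≤ 1
      rw [h5]
      exact (add_le_add le_rfl hj).trans h6.le
  refine ⟨{ r0 := r0, ext := d.toPExt, L := L, c := fun l => d.c l (π l), Θ := Thπ d nz γ π,
            j := j, I := I, le_j := hej, le_I := by omega, len_one := hL, len_pos := ?_,
            dvd := ?_, rel := ?_, relG := fun l => relG_of d π l, disc := ?_, nil := ?_ }⟩
  · refine hπ.trans (Vale.Agent.P177.Lim.len_sub_mono L ?_)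
    rw [pow_succ]
    exact sm_mul_le _ _
  · intro l hl
    exact (Finset.dvd_prod_of_mem (fun l => d.c l (π l))
      (Finset.mem_filter.2 ⟨Finset.mem_univ l, hl⟩)).mul_left _
  · intro f hf
    have h1 := rel_of d π (hE f hf)
    have h2 := Ideal.mul_mem_left _ (teichmuller p (γ * ∏ l ∈ nz, d.c l (π l))) h1
    rw [← mul_assoc, ← map_mul] at h2
    have h3 : Thπ d nz γ π = γ * (∏ l ∈ nz, d.c l (π l)) * d.δ π := by
      rw [Thπ]
      ring
    rw [h3]
    exact h2
  · have h1 := Ideal.mul_mem_left _ (teichmuller p (∏ l ∈ nz, d.c l (π l))) (hw π)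
    have h2 : teichmuller p (Thπ d nz γ π) = (teichmuller p (∏ l ∈ nz, d.c l (π l)) *
        teichmuller p (∏ l ∈ nz, d.c l (π l)) * teichmuller p (d.δ π) * evπ d π Y) * vπ d π +
        teichmuller p (∏ l ∈ nz, d.c l (π l)) * (teichmuller p (d.δ π * γ) -
          teichmuller p (∏ l ∈ nz, d.c l (π l)) *
            (teichmuller p (d.δ π) * vπ d π * evπ d π Y)) := by
      rw [Thπ, map_mul]
      ring
    rw [h2]
    exact Submodule.add_mem_sup (Ideal.mul_mem_left _ _ (Ideal.mem_span_singleton_self _)) h1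
  · intro l hl
    have h1 := relG_of d π l
    have h2 := hGmax l hl
    rw [Polynomial.eval₂_eq_sum_range, Finset.sum_range_succ, (hGm l).coeff_natDegree, map_one,
      one_mul, hGD l] at h1
    have hxi : xiM p k r d.C (I + 1) ≤ vW p k r d.C := by
      rw [xiM, Ideal.span_le]
      rintro y (rfl | rfl)
      · exact sub_mem (Ideal.subset_span (Set.mem_insert _ _))
          (Ideal.subset_span (Set.mem_insert_of_mem _ ⟨0, rfl⟩))
      · rw [pow_succ]
        exact Ideal.mul_mem_left _ _ (Ideal.subset_span (Set.mem_insert _ _))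
    have hla : ∀ x ∈ maximalIdeal Λ, laW ψ d.C x ∈ vW p k r d.C := by
      have h3 : maximalIdeal Λ ≤ (vW p k r d.C).comap (laW ψ d.C) := by
        rw [hmax, Ideal.span_le]
        rintro y (rfl | ⟨i, rfl⟩)
        · rw [SetLike.mem_coe, Ideal.mem_comap, map_natCast]
          exact Ideal.subset_span (Set.mem_insert _ _)
        · rw [SetLike.mem_coe, Ideal.mem_comap]
          change WittVector.map _ (ψ (u i)) ∈ _
          rw [hb.psi_u, WittVector.map_teichmuller]
          exact Ideal.subset_span (Set.mem_insert_of_mem _ ⟨i.succ, rfl⟩)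
      exact fun x hx => h3 hx
    have h4 : ∑ i ∈ Finset.range D, laW ψ d.C ((G l).coeff i) *
        teichmuller p (d.c l (π l)) ^ i ∈ vW p k r d.C := by
      refine Ideal.sum_mem _ fun i hi => Ideal.mul_mem_right _ _ ?_
      exact hla _ (h2 i (Finset.mem_range.1 hi))
    have h5 := sub_mem (hxi h1) h4
    rw [add_sub_cancel_left, ← map_pow, mem_vW_iff, teichmuller_coeff_zero] at h5
    exact h5

end

end Vale.Agent.P177.Lev
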