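import Mathlib

/-!
P177, block POSTR: the norm of a polynomial over `R0[X_1..X_s]/(F_j(X_j))` as a product over all
choices of roots.
-/

namespace Vale.Agent.P177.Lev

open Polynomial

universe u

theorem res_split {R0 R1 : Type*} [CommRing R0] [CommRing R1] (φ : R0 →+* R1) {D : ℕ}
    (F g : R0[X]) (n : ℕ) (hn : g.natDegree ≤ n) (c : Fin D → R1)
    (h : F.map φ = ∏ i, (X - C (c i))) :
    φ (resultant F g D n) = ∏ i, (g.map φ).eval (c i) := by
  nontriviality R1
  have hd : (∏ i : Fin D, (X - C (c i))).natDegree = D := by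
    rw [natDegree_finsetProd_X_sub_C_eq_card, Finset.card_univ, Fintype.card_fin]
  have hn' : (g.map φ).natDegree ≤ n := natDegree_map_le.trans hn
  have h1 := resultant_prod_left Finset.univ (fun i => X - C (c i)) (g.map φ) n
    (by simp) hn'
  rw [hd] at h1
  rw [← resultant_map_map, h, h1]
  refine Finset.prod_congr rfl fun i _ => ?_
  rw [natDegree_X_sub_C, resultant_X_sub_C_left _ _ _ hn']

theorem eval_finSucc {R0 R1 : Type*} [CommRing R0] [CommRing R1] (φ : R0 →+* R1) {s : ℕ}
    (y : R1) (z : Fin s → R1) (f : MvPolynomial (Fin (s + 1)) R0) :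
    ((MvPolynomial.finSuccEquiv R0 s f).map (MvPolynomial.eval₂Hom φ z)).eval y =
      MvPolynomial.eval₂ φ (Fin.cons y z : Fin (s + 1) → R1) f := by
  have h : ((Polynomial.evalRingHom y).comp (Polynomial.mapRingHom
      (MvPolynomial.eval₂Hom φ z))).comp (MvPolynomial.finSuccEquiv R0 s : _ →+* _) =
      MvPolynomial.eval₂Hom φ (Fin.cons y z : Fin (s + 1) → R1) := by
    refine MvPolynomial.ringHom_ext (fun r => ?_) fun i => ?_
    · simp [MvPolynomial.finSuccEquiv_apply]
    · refine Fin.cases ?_ (fun i => ?_) i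
      · simp [MvPolynomial.finSuccEquiv_X_zero]
      · simp [MvPolynomial.finSuccEquiv_X_succ]
  exact congrArg (fun θ => θ f) h

theorem exists_norm (s : ℕ) : ∀ (R0 : Type u) [CommRing R0] (D : ℕ) (F : Fin s → R0[X])
    (f : MvPolynomial (Fin s) R0), ∃ N : R0, ∀ (R1 : Type u) [CommRing R1] (φ : R0 →+* R1)
      (c : Fin s → Fin D → R1), (∀ j, (F j).map φ = ∏ i, (X - C (c j i))) →
      ∏ π : Fin s → Fin D, MvPolynomial.eval₂ φ (fun j => c j (π j)) f = φ N := by
  induction s with
  | zero =>
    intro R0 _ D F f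
    refine ⟨MvPolynomial.isEmptyAlgEquiv R0 (Fin 0) f, fun R1 _ φ c _ => ?_⟩
    rw [Fintype.prod_unique]
    obtain ⟨a, rfl⟩ := MvPolynomial.C_surjective (R := R0) (Fin 0) f
    rw [MvPolynomial.eval₂_C]
    congr 1
    exact ((MvPolynomial.isEmptyAlgEquiv R0 (Fin 0)).commutes a).symm
  | succ s ih =>
    intro R0 _ D F f
    let g := MvPolynomial.finSuccEquiv R0 s f
    let N0 : MvPolynomial (Fin s) R0 :=
      resultant ((F 0).map MvPolynomial.C) g D g.natDegree
    obtain ⟨N, hN⟩ := ih R0 D (fun j => F j.succ) N0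
    refine ⟨N, fun R1 _ φ c hc => ?_⟩
    rw [← hN R1 φ (fun j => c j.succ) fun j => hc j.succ]
    rw [← Fintype.prod_equiv (Fin.consEquiv fun _ : Fin (s + 1) => Fin D)
      (fun q => MvPolynomial.eval₂ φ (fun j => c j ((Fin.cons q.1 q.2 : Fin (s + 1) → Fin D) j)) f)
      _ fun q => rfl, Fintype.prod_prod_type_right]
    refine Finset.prod_congr rfl fun π _ => ?_
    have h1 := res_split (MvPolynomial.eval₂Hom φ fun j => c j.succ (π j))
      ((F 0).map MvPolynomial.C) g g.natDegree le_rfl (c 0) (by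
        rw [Polynomial.map_map, MvPolynomial.eval₂Hom_comp_C, hc 0])
    refine Eq.trans ?_ h1.symm
    refine Finset.prod_congr rfl fun i _ => ?_
    rw [eval_finSucc]
    congr 1
    funext j
    refine Fin.cases ?_ (fun j => ?_) j
    · rfl
    · rfl

/-- the norm vanishes if `f` vanishes at a common root of the `F_j`. -/
theorem norm_eq_zero {s : ℕ} {R0 A : Type u} [CommRing R0] [CommRing A] [IsDomain A]
    [Algebra R0 A] (hinj : Function.Injective (algebraMap R0 A)) {D : ℕ} (F : Fin s → R0[X])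
    (hFm : ∀ j, (F j).Monic) (hFD : ∀ j, (F j).natDegree = D) (a : Fin s → A)
    (ha : ∀ j, aeval (a j) (F j) = 0) (f : MvPolynomial (Fin s) R0)
    (hf : MvPolynomial.aeval a f = 0)
    (R1 : Type u) [CommRing R1] (φ : R0 →+* R1) (c : Fin s → Fin D → R1)
    (hc : ∀ j, (F j).map φ = ∏ i, (X - C (c j i))) :
    ∏ π : Fin s → Fin D, MvPolynomial.eval₂ φ (fun j => c j (π j)) f = 0 := by
  obtain ⟨N, hN⟩ := exists_norm s R0 D F f
  rw [hN R1 φ c hc]
  let Ω := AlgebraicClosure (FractionRing A)
  let θ : A →+* Ω := (algebraMap (FractionRing A) Ω).comp (algebraMap A (FractionRing A))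
  have hθ : Function.Injective θ := (algebraMap (FractionRing A) Ω).injective.comp
    (IsFractionRing.injective A (FractionRing A))
  let φ' : R0 →+* Ω := θ.comp (algebraMap R0 A)
  have hφ' : Function.Injective φ' := hθ.comp hinj
  suffices h : φ' N = 0 by
    have : N = 0 := hφ' (h.trans (map_zero φ').symm)
    rw [this, map_zero]
  -- the roots in `Ω`
  have hroots : ∀ j, ∃ b : Fin D → Ω, (F j).map φ' = ∏ i, (X - C (b i)) := by
    intro j
    have hm : ((F j).map φ').Monic := (hFm j).map φ'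
    have hs : ((F j).map φ').Splits := IsAlgClosed.splits _
    have hcard : ((F j).map φ').roots.card = D := by
      rw [← hs.natDegree_eq_card_roots, (hFm j).natDegree_map φ', hFD j]
    have h1 := hs.eq_prod_roots_of_monic hm
    obtain ⟨l, hl⟩ : ∃ l : List Ω, (l : Multiset Ω) = ((F j).map φ').roots :=
      ⟨_, Multiset.coe_toList _⟩
    have hlen : l.length = D := by
      rw [← Multiset.coe_card, hl, hcard]
    subst hlen
    refine ⟨l.get, ?_⟩
    rw [h1, ← hl, Multiset.map_coe, Multiset.prod_coe, ← List.prod_ofFn]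
    congr 1
    exact ((List.ofFn_comp' l.get (fun x => X - C x)).trans (by rw [List.ofFn_get])).symm
  choose b hb using hroots
  have hex : ∀ j, ∃ i, b j i = θ (a j) := by
    intro j
    have h1 : ((F j).map φ').eval (θ (a j)) = 0 := by
      have h2 : ((F j).map φ').eval (θ (a j)) = θ (aeval (a j) (F j)) := by
        rw [aeval_def, hom_eval₂, eval_map]
      rw [h2, ha j, map_zero]
    rw [hb j, eval_prod, Finset.prod_eq_zero_iff] at h1
    obtain ⟨i, _, hi⟩ := h1
    rw [eval_sub, eval_X, eval_C, sub_eq_zero] at hi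
    exact ⟨i, hi.symm⟩
  choose π hπ using hex
  rw [← hN Ω φ' b hb]
  refine Finset.prod_eq_zero (Finset.mem_univ π) ?_
  have h3 : MvPolynomial.eval₂ φ' (fun j => b j (π j)) f = θ (MvPolynomial.aeval a f) := by
    rw [MvPolynomial.aeval_def, MvPolynomial.hom_eval₂]
    congr 1
    funext j
    exact hπ j
  rw [h3, hf, map_zero]

end Vale.Agent.P177.Lev
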