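import Vale.Agent.P177.Lev.NormFn
import Vale.Agent.P177.Lim.Stab
import Vale.Agent.P202.Mix.Tei1

/-!
P177, block POSTR: for all choices `π` of roots, with `[δ_π] = E(c_π)`, `[δ'_π] = (g - E)(c_π)`:
`δ_π δ'_π` and `∏_π δ'_π` are divisible by `t^(I+1)`; hence the length of a module killed by `t` is
at most the sum over `π` of the lengths of `δ_π^(c/q) M` and `M/(δ_π + δ'_π)^(c/q) M`; the choice
of one `π`.
-/

namespace Vale.Agent.P177.Lev

open Polynomial Vale.Agent.P202.Mix Vale.Agent.P177.Lim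
open scoped ENNReal

universe u

section len

variable {R : Type u} [CommRing R] (L : AddLen R) {M : Type u} [AddCommGroup M] [Module R M]

/-- the submodule `x M`. -/
abbrev sm (x : R) (M : Type u) [AddCommGroup M] [Module R M] : Submodule R M :=
  LinearMap.range (LinearMap.lsmul R M x)

theorem mem_sm {x : R} {m : M} : m ∈ sm x M ↔ ∃ y : M, x • y = m := by
  simp [sm]

theorem len_quot_mul_le (x y : R) :
    L.len (M ⧸ sm (x * y) M) ≤ L.len (M ⧸ sm x M) + L.len (M ⧸ sm y M) := by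
  have h1 : sm (x * y) M ≤ sm x M := by
    intro m hm
    obtain ⟨z, rfl⟩ := mem_sm.1 hm
    exact mem_sm.2 ⟨y • z, by rw [smul_smul]⟩
  -- `M/y → M/xy`, multiplication by `x`
  have h2 : sm y M ≤ (sm (x * y) M).comap (LinearMap.lsmul R M x) := by
    intro m hm
    obtain ⟨z, rfl⟩ := mem_sm.1 hm
    exact mem_sm.2 ⟨z, by rw [LinearMap.lsmul_apply, smul_smul]⟩
  let f : (M ⧸ sm y M) →ₗ[R] (M ⧸ sm (x * y) M) := Submodule.mapQ _ _ (LinearMap.lsmul R M x) h2
  let g : (M ⧸ sm (x * y) M) →ₗ[R] (M ⧸ sm x M) := Submodule.factor h1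
  rw [add_comm]
  refine len_le_of_exact L f g fun b => ⟨fun hb => ?_, ?_⟩
  · obtain ⟨m, rfl⟩ := Submodule.Quotient.mk_surjective _ b
    have h3 : m ∈ sm x M := by
      rw [← Submodule.Quotient.mk_eq_zero]
      exact hb
    obtain ⟨z, rfl⟩ := mem_sm.1 h3
    exact ⟨Submodule.Quotient.mk z, rfl⟩
  · rintro ⟨a, rfl⟩
    obtain ⟨m, rfl⟩ := Submodule.Quotient.mk_surjective _ a
    show (Submodule.Quotient.mk (x • m) : M ⧸ sm x M) = 0
    rw [Submodule.Quotient.mk_eq_zero]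
    exact mem_sm.2 ⟨m, rfl⟩

theorem len_quot_prod_le {P : Type*} (s : Finset P) (x : P → R) :
    L.len (M ⧸ sm (∏ π ∈ s, x π) M) ≤ ∑ π ∈ s, L.len (M ⧸ sm (x π) M) := by
  classical
  induction s using Finset.induction_on with
  | empty =>
    rw [Finset.prod_empty, Finset.sum_empty]
    have h : sm (1 : R) M = ⊤ := by
      rw [eq_top_iff]
      intro m _
      exact mem_sm.2 ⟨m, one_smul R m⟩
    have hs : Subsingleton (M ⧸ sm (1 : R) M) := by
      refine ⟨fun a b => ?_⟩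
      obtain ⟨a, rfl⟩ := Submodule.Quotient.mk_surjective _ a
      obtain ⟨b, rfl⟩ := Submodule.Quotient.mk_surjective _ b
      rw [Submodule.Quotient.eq, h]
      trivial
    rw [len_subsingleton_aux L]
  | insert a s ha ih =>
    rw [Finset.prod_insert ha, Finset.sum_insert ha]
    exact (len_quot_mul_le L _ _).trans (add_le_add le_rfl ih)

/-- `len M ≤ ∑ len (M / x_π M)` if `∏ x_π` kills `M`. -/
theorem len_le_sum_quot {P : Type*} [Fintype P] (x : P → R) (h : ∀ m : M, (∏ π, x π) • m = 0) :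
    L.len M ≤ ∑ π, L.len (M ⧸ sm (x π) M) := by
  have h1 : sm (∏ π, x π) M = ⊥ := by
    rw [eq_bot_iff]
    intro m hm
    obtain ⟨z, rfl⟩ := mem_sm.1 hm
    rw [h z]
    exact zero_mem _
  have h2 := len_quot_prod_le L (M := M) Finset.univ x
  rw [h1, len_congr L (Submodule.quotEquivOfEqBot (⊥ : Submodule R M) rfl)] at h2
  exact h2

theorem add_pow_smul (d d' : R) (h : ∀ m : M, (d * d') • m = 0) (c : ℕ) (m : M) :
    (d + d') ^ (c + 1) • m = (d ^ (c + 1) + d' ^ (c + 1)) • m := by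
  induction c generalizing m with
  | zero => rw [zero_add, pow_one, pow_one, pow_one]
  | succ c ih =>
    rw [pow_succ, mul_smul, ih, smul_smul]
    have h1 : (d ^ (c + 1) + d' ^ (c + 1)) * (d + d') =
        (d ^ (c + 1 + 1) + d' ^ (c + 1 + 1)) + (d ^ c + d' ^ c) * (d * d') := by ring
    rw [h1, add_smul, mul_smul, h, smul_zero, add_zero]

/-- `len (M/d'^c M) ≤ len (d^c M) + len (M/(d + d')^c M)` if `d d'` kills `M`. -/
theorem len_quot_le_pw (d d' : R) (h : ∀ m : M, (d * d') • m = 0) (c : ℕ) :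
    L.len (M ⧸ sm (d' ^ (c + 1)) M) ≤
      L.len (sm (d ^ (c + 1)) M) + L.len (M ⧸ sm ((d + d') ^ (c + 1)) M) := by
  -- `d^c M → M/d'^c → M/(d'^c, (d+d')^c)`
  let X := sm (d' ^ (c + 1)) M
  let Y := sm ((d + d') ^ (c + 1)) M
  let f : sm (d ^ (c + 1)) M →ₗ[R] (M ⧸ X) := X.mkQ ∘ₗ (sm (d ^ (c + 1)) M).subtype
  let g : (M ⧸ X) →ₗ[R] (M ⧸ (X ⊔ Y)) := Submodule.factor le_sup_left
  have h1 : Function.Exact f g := by
    intro b
    constructor
    · intro hb
      obtain ⟨m, rfl⟩ := Submodule.Quotient.mk_surjective _ b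
      have h3 : m ∈ X ⊔ Y := by
        rw [← Submodule.Quotient.mk_eq_zero]
        exact hb
      obtain ⟨a, ha, b, hb', rfl⟩ := Submodule.mem_sup.1 h3
      obtain ⟨z, rfl⟩ := mem_sm.1 hb'
      refine ⟨⟨d ^ (c + 1) • z, mem_sm.2 ⟨z, rfl⟩⟩, ?_⟩
      show (Submodule.Quotient.mk (d ^ (c + 1) • z) : M ⧸ X) = Submodule.Quotient.mk _
      rw [Submodule.Quotient.eq, add_pow_smul d d' h, add_smul]
      have h4 : d ^ (c + 1) • z - (a + (d ^ (c + 1) • z + d' ^ (c + 1) • z)) =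
          -(a + d' ^ (c + 1) • z) := by abel
      rw [h4]
      exact neg_mem (add_mem ha (mem_sm.2 ⟨z, rfl⟩))
    · rintro ⟨⟨a, ha⟩, rfl⟩
      obtain ⟨z, rfl⟩ := mem_sm.1 ha
      show (Submodule.Quotient.mk (d ^ (c + 1) • z) : M ⧸ (X ⊔ Y)) = 0
      rw [Submodule.Quotient.mk_eq_zero]
      have h4 : d ^ (c + 1) • z = -(d' ^ (c + 1) • z) + (d + d') ^ (c + 1) • z := by
        rw [add_pow_smul d d' h, add_smul]
        abel
      rw [h4]
      exact Submodule.add_mem_sup (neg_mem (mem_sm.2 ⟨z, rfl⟩)) (mem_sm.2 ⟨z, rfl⟩)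
  refine (len_le_of_exact L f g h1).trans (add_le_add le_rfl ?_)
  exact len_le_of_surj L (Submodule.factor (le_sup_right : Y ≤ X ⊔ Y)) (Submodule.factor_surjective _)

/-- the main estimate. -/
theorem len_le_sum {P : Type*} [Fintype P] (d d' : P → R) (h : ∀ π, ∀ m : M, (d π * d' π) • m = 0)
    (h' : ∀ m : M, (∏ π, d' π) • m = 0) (c : ℕ) :
    L.len M ≤ ∑ π, (L.len (sm (d π ^ (c + 1)) M) + L.len (M ⧸ sm ((d π + d' π) ^ (c + 1)) M)) := by
  refine (len_le_sum_quot L (fun π => d' π ^ (c + 1)) fun m => ?_).trans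
    (Finset.sum_le_sum fun π _ => len_quot_le_pw L (d π) (d' π) (h π) c)
  rw [Finset.prod_pow, pow_succ, mul_smul, h', smul_zero]

/-- `len (x M) ≤ len (x y M) + len (M/y M)`. -/
theorem len_sm_le (x y : R) :
    L.len (sm x M) ≤ L.len (sm (x * y) M) + L.len (M ⧸ sm y M) := by
  have h1 : sm (x * y) M ≤ sm x M := by
    intro m hm
    obtain ⟨z, rfl⟩ := mem_sm.1 hm
    exact mem_sm.2 ⟨y • z, by rw [smul_smul]⟩
  -- `M → xM / xyM` kills `yM`
  let N : Submodule R (sm x M) := (sm (x * y) M).submoduleOf (sm x M)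
  let φ : M →ₗ[R] sm x M := (LinearMap.lsmul R M x).rangeRestrict
  have h2 : sm y M ≤ N.comap φ := by
    intro m hm
    obtain ⟨z, rfl⟩ := mem_sm.1 hm
    show x • y • z ∈ sm (x * y) M
    exact mem_sm.2 ⟨z, by rw [smul_smul]⟩
  rw [len_sub_quot L N, len_congr L (Submodule.submoduleOfEquivOfLe h1)]
  refine add_le_add le_rfl ?_
  refine len_le_of_surj L (Submodule.mapQ _ _ φ h2) ?_
  intro b
  obtain ⟨m, rfl⟩ := Submodule.Quotient.mk_surjective _ b
  obtain ⟨z, rfl⟩ := (LinearMap.lsmul R M x).surjective_rangeRestrict m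
  exact ⟨Submodule.Quotient.mk z, rfl⟩

end len

section arith

variable (p : ℕ) [Fact p.Prime] {C : Type u} [CommRing C] [CharP C p] [PerfectRing C p] (t : C)

theorem rt_mem_span {e I m : ℕ} (h : m * p ^ e ≤ I) {y : C} (hy : y ∈ Ideal.span {t ^ I}) :
    rt p e y ∈ Ideal.span {t ^ m} := by
  obtain ⟨x, rfl⟩ := Ideal.mem_span_singleton'.1 hy
  obtain ⟨k, rfl⟩ := Nat.exists_eq_add_of_le h
  have h1 : rt p e (t ^ (m * p ^ e)) = t ^ m := by
    unfold rt
    rw [pow_mul, RingEquiv.symm_apply_eq]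
    rfl
  have h2 : rt p e (x * t ^ (m * p ^ e + k)) = rt p e x * (t ^ m * rt p e (t ^ k)) := by
    rw [← h1]
    unfold rt
    rw [pow_add, map_mul, map_mul]
  rw [h2]
  exact Ideal.mul_mem_left _ _ (Ideal.mul_mem_right _ _ (Ideal.mem_span_singleton_self _))

theorem rt_mul' (e : ℕ) (a b : C) : rt p e (a * b) = rt p e a * rt p e b := map_mul _ _ _

theorem rt_add' (e : ℕ) (a b : C) : rt p e (a + b) = rt p e a + rt p e b := map_add _ _ _

theorem rt_prod' {P : Type*} (s : Finset P) (e : ℕ) (a : P → C) :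
    rt p e (∏ i ∈ s, a i) = ∏ i ∈ s, rt p e (a i) := map_prod _ _ _

variable (ht : t ∈ nonZeroDivisors C) {Λ A : Type u} [CommRing Λ] [CommRing A] [IsDomain A]
  [Algebra Λ A] (hinj : Function.Injective (algebraMap Λ A)) (φ : Λ →+* Bt p C t) {s D I : ℕ}
  (F : Fin s → Λ[X]) (hFm : ∀ j, (F j).Monic) (hFD : ∀ j, (F j).natDegree = D)
  (a : Fin s → A) (ha : ∀ j, aeval (a j) (F j) = 0) (E : MvPolynomial (Fin s) Λ) (g : Λ)
  (hEg : MvPolynomial.aeval a E = algebraMap Λ A g)
  (hE : ∀ f : MvPolynomial (Fin s) Λ, MvPolynomial.aeval a f = 0 →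
    E * f ∈ Ideal.span (Set.range fun j => Polynomial.toMvPolynomial j (F j)))
  (c : Fin s → Fin D → C) (δ δ' : (Fin s → Fin D) → C)
  (split : ∀ j n, ((F j).map φ - ∏ i, (X - Polynomial.C (te p C t (c j i)))).coeff n ∈
    Ideal.span {(p : Bt p C t) ^ (I + 1)})
  (hδ : ∀ π, te p C t (δ π) - MvPolynomial.eval₂ φ (fun j => te p C t (c j (π j))) E ∈
    Ideal.span {(p : Bt p C t) ^ (I + 1)})
  (hδ' : ∀ π, te p C t (δ' π) - (φ g - MvPolynomial.eval₂ φ (fun j => te p C t (c j (π j))) E) ∈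
    Ideal.span {(p : Bt p C t) ^ (I + 1)})

include split in
omit [CharP C p] [PerfectRing C p] in
theorem split_mk (j : Fin s) :
    (F j).map ((Ideal.Quotient.mk (Ideal.span {(p : Bt p C t) ^ (I + 1)})).comp φ) =
      ∏ i, (X - Polynomial.C (Ideal.Quotient.mk (Ideal.span {(p : Bt p C t) ^ (I + 1)})
        (te p C t (c j i)))) := by
  have h1 : ((F j).map φ).map (Ideal.Quotient.mk (Ideal.span {(p : Bt p C t) ^ (I + 1)})) =
      (∏ i, (X - Polynomial.C (te p C t (c j i)))).map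
        (Ideal.Quotient.mk (Ideal.span {(p : Bt p C t) ^ (I + 1)})) := by
    ext n
    have h2 := split j n
    rw [coeff_sub] at h2
    exact (coeff_map _ _).trans ((Ideal.Quotient.eq.2 h2).trans (coeff_map _ _).symm)
  rw [← Polynomial.map_map, h1, Polynomial.map_prod]
  refine Finset.prod_congr rfl fun i _ => ?_
  rw [Polynomial.map_sub, Polynomial.map_X, Polynomial.map_C]

include ht hEg hE split hδ hδ' in
omit [IsDomain A] in
theorem delta_mul_mem (π : Fin s → Fin D) : δ π * δ' π ∈ Ideal.span {t ^ (I + 1)} := by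
  let mk := Ideal.Quotient.mk (Ideal.span {(p : Bt p C t) ^ (I + 1)})
  let θ : MvPolynomial (Fin s) Λ →+* Bt p C t ⧸ Ideal.span {(p : Bt p C t) ^ (I + 1)} :=
    MvPolynomial.eval₂Hom (mk.comp φ) fun j => mk (te p C t (c j (π j)))
  have hθ : ∀ f, θ f = mk (MvPolynomial.eval₂ φ (fun j => te p C t (c j (π j))) f) := by
    intro f
    rw [MvPolynomial.hom_eval₂]
    rfl
  have h1 : θ (E * (E - MvPolynomial.C g)) = 0 := by
    have h2 := hE (E - MvPolynomial.C g) (by
      rw [map_sub, hEg, MvPolynomial.aeval_C, sub_self])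
    have h3 : Ideal.span (Set.range fun j => Polynomial.toMvPolynomial j (F j)) ≤
        RingHom.ker θ := by
      rw [Ideal.span_le]
      rintro _ ⟨j, rfl⟩
      rw [SetLike.mem_coe, RingHom.mem_ker]
      have h4 : θ (Polynomial.toMvPolynomial j (F j)) =
          ((F j).map (mk.comp φ)).eval (mk (te p C t (c j (π j)))) := by
        rw [Polynomial.eval_map]
        show θ (Polynomial.aeval (MvPolynomial.X j) (F j)) = _
        rw [Polynomial.aeval_def, Polynomial.hom_eval₂]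
        congr 1
        · ext z
          simp [θ]
        · simp [θ]
      rw [h4, split_mk p t φ F c split j, eval_prod]
      exact Finset.prod_eq_zero (Finset.mem_univ (π j)) (by simp [mk])
    exact h3 h2
  refine mem_of_te_mem p C t ht _ _ ?_
  rw [te_mul, ← Ideal.Quotient.eq_zero_iff_mem, map_mul]
  have h5 := Ideal.Quotient.eq.2 (hδ π)
  have h6 := Ideal.Quotient.eq.2 (hδ' π)
  rw [h5, h6]
  rw [map_mul, hθ, map_sub, hθ, hθ, MvPolynomial.eval₂_C] at h1
  rw [map_sub]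
  linear_combination -h1

include ht hinj hFm hFD ha hEg split hδ' in
theorem prod_delta_mem : ∏ π, δ' π ∈ Ideal.span {t ^ (I + 1)} := by
  let mk := Ideal.Quotient.mk (Ideal.span {(p : Bt p C t) ^ (I + 1)})
  have h1 := norm_eq_zero hinj F hFm hFD a ha (MvPolynomial.C g - E)
    (by rw [map_sub, hEg, MvPolynomial.aeval_C, sub_self])
    _ (mk.comp φ) (fun j i => mk (te p C t (c j i))) fun j => split_mk p t φ F c split j
  refine mem_of_te_mem p C t ht _ _ ?_
  rw [← Ideal.Quotient.eq_zero_iff_mem]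
  have h2 : te p C t (∏ π, δ' π) = ∏ π, te p C t (δ' π) := by
    rw [te, map_prod, map_prod]
    rfl
  rw [h2, map_prod, ← h1]
  refine Finset.prod_congr rfl fun π _ => ?_
  have h6 := Ideal.Quotient.eq.2 (hδ' π)
  rw [h6, MvPolynomial.eval₂_sub, MvPolynomial.eval₂_C, map_sub, MvPolynomial.hom_eval₂]
  rfl

include ht hinj hFm hFD ha hEg hE split hδ hδ' in
/-- POSTR, one level: for every module `M` killed by `t`. -/
theorem postr_level {e : ℕ} (he : p ^ e ≤ I + 1) (L : AddLen C) (M : Type u) [AddCommGroup M]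
    [Module C M] (hM : ∀ m : M, t • m = 0) (n : ℕ) :
    L.len M ≤ ∑ π, (L.len (sm (rt p e (δ π) ^ (n + 1)) M) +
      L.len (M ⧸ sm (rt p e (δ π + δ' π) ^ (n + 1)) M)) := by
  have hk : ∀ y ∈ Ideal.span {t ^ (I + 1)}, ∀ m : M, rt p e y • m = 0 := by
    intro y hy m
    have h1 := rt_mem_span p t (e := e) (m := 1) (by rw [one_mul]; exact he) hy
    rw [pow_one] at h1
    obtain ⟨x, hx⟩ := Ideal.mem_span_singleton'.1 h1
    rw [← hx, mul_smul, hM, smul_zero]
  have h := len_le_sum L (M := M) (fun π => rt p e (δ π)) (fun π => rt p e (δ' π))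
    (fun π m => by
      rw [← rt_mul']
      exact hk _ (delta_mul_mem p t ht φ F a E g hEg hE c δ δ' split hδ hδ' π) m)
    (fun m => by
      rw [← rt_prod']
      exact hk _ (prod_delta_mem p t ht hinj φ F hFm hFD a ha E g hEg c δ' split hδ') m) n
  refine h.trans (le_of_eq (Finset.sum_congr rfl fun π _ => ?_))
  rw [rt_add']

end arith

section choice

open Filter Topology

theorem exists_pi {P : Type*} [Fintype P] (U : Ultrafilter ℕ) (f : P → ℕ → ℕ → ℝ≥0∞)
    (anti : ∀ π e, Antitone fun n => f π n e) (ε : ℝ≥0∞) (hε : ε ≠ 0)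
    (h : ∀ n, ∀ᶠ e in U, ε ≤ ∑ π, f π n e) :
    ∃ π, ∀ n, ∀ᶠ e in U, ε / Fintype.card P ≤ f π n e := by
  have h1 : ∀ n, ∃ π, ∀ᶠ e in U, ε / Fintype.card P ≤ f π n e := by
    intro n
    by_contra hcon
    push Not at hcon
    have h2 : ∀ π, ∀ᶠ e in (U : Filter ℕ), f π n e < ε / Fintype.card P := fun π => by
      filter_upwards [hcon π] with e he
      exact he
    have h3 : ∀ᶠ e in (U : Filter ℕ), ∀ π, f π n e < ε / Fintype.card P := eventually_all.2 h2
    obtain ⟨e, he1, he2⟩ := ((h n).and h3).exists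
    rcases isEmpty_or_nonempty P with hP | hP
    · rw [Finset.univ_eq_empty, Finset.sum_empty] at he1
      exact hε (le_antisymm he1 bot_le)
    · have h4 : ∑ π, f π n e < ∑ _π : P, ε / Fintype.card P :=
        ENNReal.sum_lt_sum_of_nonempty Finset.univ_nonempty fun π _ => he2 π
      rw [Finset.sum_const, Finset.card_univ, nsmul_eq_mul,
        ENNReal.mul_div_cancel (by exact_mod_cast Fintype.card_ne_zero)
          (ENNReal.natCast_ne_top _)] at h4
      exact absurd he1 (not_le.2 h4)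
  choose π hπ using h1
  obtain ⟨π0, hπ0⟩ := Finite.exists_infinite_fiber π
  refine ⟨π0, fun n => ?_⟩
  have h5 : ∃ m, n ≤ m ∧ π m = π0 := by
    have h6 : (π ⁻¹' {π0}).Infinite := Set.infinite_coe_iff.1 hπ0
    obtain ⟨m, hm, hm'⟩ := h6.exists_gt n
    exact ⟨m, hm'.le, hm⟩
  obtain ⟨m, hnm, hm⟩ := h5
  filter_upwards [hπ m] with e he
  rw [hm] at he
  exact he.trans (anti π0 e hnm)

end choice

end Vale.Agent.P177.Lev
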