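import Vale.Agent.P177.Lev.Rel
import Vale.Agent.P177.Lev.LenW
import Vale.Agent.P177.Lev.Pos
import Vale.Agent.P177.Pos.Small
import Vale.Agent.P177.AR.TE

/-!
P177, block LEV: positivity at one level.
-/

namespace Vale.Agent.P177.Lev

open Vale.Agent.P202.Mix Vale.Agent.P202.Mix.UL WittVector Vale.Agent.P177.Perf
open Vale.Agent.P177.PI hiding rt
open scoped ENNReal

universe u

section E1

variable {p : ℕ} [Fact p.Prime] {C : Type u} [CommRing C] [CharP C p] [PerfectRing C p]

theorem rt_pow_add (j f n : ℕ) (x : C) : (rt p j x ^ n) ^ p ^ (f + j) = x ^ (n * p ^ f) := by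
  rw [← pow_mul, mul_comm n, pow_add, mul_comm (p ^ f), mul_assoc, pow_mul]
  have h1 : rt p j x ^ p ^ j = x := rt_pow_self p C x j
  rw [h1, mul_comm n]

theorem rt_mem_of_perfHull {x a b : C} (h : x ∈ perfHull p (Ideal.span {a, b})) (j n : ℕ) :
    rt p j x ^ (2 * n) ∈ Ideal.span {rt p j a ^ n, rt p j b ^ n} := by
  obtain ⟨f, hf⟩ := h
  have h1 : (rt p j x ^ (2 * n)) ^ p ^ (f + j) ∈
      Ideal.span {a ^ (n * p ^ f)} ⊔ Ideal.span {b ^ (n * p ^ f)} := by
    rw [rt_pow_add]
    have h2 := Ideal.pow_mem_pow hf (2 * n)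
    rw [← pow_mul, ← pow_mul, mul_comm (p ^ f), Ideal.span_insert,
      show 2 * n * p ^ f = n * p ^ f + n * p ^ f by ring] at h2
    have h3 := Ideal.sup_pow_add_le_pow_sup_pow h2
    rw [Ideal.span_singleton_pow, Ideal.span_singleton_pow] at h3
    rw [show 2 * n * p ^ f = n * p ^ f + n * p ^ f by ring]
    exact h3
  obtain ⟨y, hy, z, hz, hyz⟩ := Submodule.mem_sup.1 h1
  obtain ⟨α, rfl⟩ := Ideal.mem_span_singleton'.1 hy
  obtain ⟨β, rfl⟩ := Ideal.mem_span_singleton'.1 hz
  rw [Ideal.mem_span_pair]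
  refine ⟨rt p (f + j) α, rt p (f + j) β, ?_⟩
  refine rt_inj (p := p) (e := f + j) ?_
  rw [← hyz, add_pow_char_pow, mul_pow, mul_pow, rt_pow_add, rt_pow_add]
  have h4 : ∀ y : C, rt p (f + j) y ^ p ^ (f + j) = y := fun y => rt_pow_self p C y (f + j)
  rw [h4, h4]

end E1

section E2

variable {p : ℕ} [Fact p.Prime] {k : Type u} [Field k] [CharP k p] {r : ℕ}
variable {C : Type u} [CommRing C] [CharP C p] [PerfectRing C p] [Algebra (Rp p k r) C]

/-- transfer from `O` to the hull. -/
theorem mem_perfHull_of {z x : C} {w : WittVector p C} {I : ℕ}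
    (h : teichmuller p x - teichmuller p z * w ∈ xiM p k r C (I + 1)) :
    x ∈ perfHull p (Ideal.span {z, tC p k r C ^ (I + 1)}) := by
  obtain ⟨v1, v2, h1⟩ := (mem_xiM_iff_exists _ _).1 h
  set t := tC p k r C with ht
  set K := perfHull p (Ideal.span {z, t ^ (I + 1)}) with hKdef
  have hK : IsPerf p K := isPerf_perfHull p _
  have hz : z ∈ K := le_perfHull (Ideal.subset_span (Set.mem_insert _ _))
  have htK : t ^ (I + 1) ∈ K :=
    le_perfHull (Ideal.subset_span (Set.mem_insert_of_mem _ rfl))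
  have hT : IsPerf p (⊤ : Ideal C) := fun _ _ _ _ _ _ _ _ => Submodule.mem_top
  have h2 : (∑ i ∈ Finset.range (I + 1), (p : WittVector p C) ^ i *
      teichmuller p t ^ (I + 1 - 1 - i)) * ((p : WittVector p C) - teichmuller p t) =
      (p : WittVector p C) ^ (I + 1) - teichmuller p t ^ (I + 1) :=
    (Commute.all (p : WittVector p C) (teichmuller p t)).geom_sum₂_mul (I + 1)
  set S := ∑ i ∈ Finset.range (I + 1), (p : WittVector p C) ^ i *
      teichmuller p t ^ (I + 1 - 1 - i)
  have hWT : ∀ y : WittVector p C, y ∈ WI p (⊤ : Ideal C) := by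
    intro y
    rw [mem_WI]
    intro N
    have h3 : (1 : WittVector p C) ∈ TI p (⊤ : Ideal C) := by
      rw [← map_one (teichmuller p)]
      exact te_mem_TI p Submodule.mem_top
    have h4 := TI_le_TN p (⊤ : Ideal C) N h3
    rw [← mul_one y]
    exact Ideal.mul_mem_left _ _ h4
  refine te_transfer p hK hT t x (I + 1) (fun y _ => Ideal.mul_mem_right _ _ htK)
    Submodule.mem_top (v := v1 + S * v2) (j := teichmuller p z * w +
      teichmuller p (t ^ (I + 1)) * v2) (hWT _) ?_ ?_
  · exact add_mem (Ideal.mul_mem_right _ _ (te_mem_WI p hz))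
      (Ideal.mul_mem_right _ _ (te_mem_WI p htK))
  · rw [map_pow]
    linear_combination h1 - v2 * h2

/-- two elements of `C` congruent modulo `t` act in the same way on `W(C)/(p, [t], [u])`. -/
theorem te_sub_mem_vW {a b : C} (h : a - b ∈ vI p k r C) :
    teichmuller p a - teichmuller p b ∈ vW p k r C := by
  rw [mem_vW_iff]
  have : (teichmuller p a - teichmuller p b).coeff 0 =
      constantCoeff (teichmuller p a - teichmuller p b) := rfl
  rw [this, map_sub]
  change (teichmuller p a).coeff 0 - (teichmuller p b).coeff 0 ∈ _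
  rwa [teichmuller_coeff_zero, teichmuller_coeff_zero]

omit [CharP C p] [PerfectRing C p] in
theorem sm_congr {x y : WittVector p C} (h : x - y ∈ vW p k r C) :
    sm x (WittVector p C ⧸ vW p k r C) = sm y (WittVector p C ⧸ vW p k r C) := by
  have h1 : ∀ m : WittVector p C ⧸ vW p k r C, x • m = y • m := by
    intro m
    obtain ⟨m, rfl⟩ := Ideal.Quotient.mk_surjective m
    change Ideal.Quotient.mk (vW p k r C) (x * m) = Ideal.Quotient.mk (vW p k r C) (y * m)
    rw [Ideal.Quotient.eq, ← sub_mul]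
    exact Ideal.mul_mem_right _ _ h
  ext m
  rw [mem_sm, mem_sm]
  simp only [h1]

omit [CharP C p] [PerfectRing C p] in
theorem sm_mul_le (x y : WittVector p C) :
    sm (x * y) (WittVector p C ⧸ vW p k r C) ≤ sm x (WittVector p C ⧸ vW p k r C) := by
  intro m hm
  obtain ⟨z, rfl⟩ := mem_sm.1 hm
  exact mem_sm.2 ⟨y • z, by rw [smul_smul]⟩

omit [CharP C p] [PerfectRing C p] in
/-- the quotient by `x (W(C)/vW)` -/
theorem len_quot_sm (L : AddLen (WittVector p C)) (x : WittVector p C) :
    L.len ((WittVector p C ⧸ vW p k r C) ⧸ sm x (WittVector p C ⧸ vW p k r C)) =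
      L.len (WittVector p C ⧸ (vW p k r C ⊔ Ideal.span {x})) := by
  have h1 : sm x (WittVector p C ⧸ vW p k r C) =
      Submodule.map (vW p k r C).mkQ (vW p k r C ⊔ Ideal.span {x}) := by
    ext m
    rw [mem_sm]
    constructor
    · rintro ⟨z, rfl⟩
      obtain ⟨z, rfl⟩ := Submodule.Quotient.mk_surjective _ z
      refine ⟨x * z, ?_, rfl⟩
      exact Ideal.mul_mem_right _ _ ((le_sup_right : _ ≤ vW p k r C ⊔ Ideal.span {x})
        (Ideal.mem_span_singleton_self x))
    · rintro ⟨y, hy, rfl⟩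
      obtain ⟨a, ha, b, hb, rfl⟩ := Submodule.mem_sup.1 hy
      obtain ⟨c, rfl⟩ := Ideal.mem_span_singleton'.1 hb
      refine ⟨Submodule.Quotient.mk c, ?_⟩
      rw [map_add]
      have h2 : (vW p k r C).mkQ a = 0 := (Submodule.Quotient.mk_eq_zero _).2 ha
      rw [h2, zero_add, mul_comm]
      rfl
  rw [h1]
  exact len_congr L (Submodule.quotientQuotientEquivQuotient (vW p k r C)
    (vW p k r C ⊔ Ideal.span {x}) le_sup_left)

end E2

end Vale.Agent.P177.Lev
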