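import Vale.Agent.P177.Lev.PosE
import Vale.Agent.P202.Mix.GammaForm
import Vale.Agent.P202.Mix.LenEst

/-!
P177, block LEV: positivity at one level, the sum over all choices of roots.
-/

namespace Vale.Agent.P177.Lev

open Vale.Agent.P202.Mix Vale.Agent.P202.Mix.UL WittVector Vale.Agent.P177.Perf
open Vale.Agent.P177.PI hiding rt
open scoped ENNReal

universe u

variable {p : ℕ} [Fact p.Prime] {k : Type u} [Field k] [CharP k p] {r : ℕ}

theorem ker_ccV_eq {r0 : ℕ} (d : PExt.{u} p k r r0) :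
    RingHom.ker (Vale.Agent.P177.Pos.ccV d) = vW p k r d.C := by
  ext x
  rw [mem_vW_iff, RingHom.mem_ker]
  exact Ideal.Quotient.eq_zero_iff_mem

/-- the form of `γ` for which the smallness holds -/
structure SmallForm {r0 : ℕ} (d : PExt.{u} p k r r0) (a Cg : ℕ) (γ : d.C) : Prop where
  ex : ∃ (g : R0 k r) (x : d.C), (∀ q c : ℕ, 1 ≤ q → 1 ≤ c →
      (q : ℝ≥0∞) * ENat.toENNReal (Module.length (R0 k r) (R0 k r ⧸ Ideal.span
        ({(MvPowerSeries.X 0 : R0 k r), g ^ c} ∪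
          Set.range fun i : Fin r => (MvPowerSeries.X i.succ : R0 k r) ^ q))) ≤
        (c * Cg * q ^ r : ℕ)) ∧ γ = tC p k r d.C ^ a *
      (algebraMap (Rp p k r) d.C (PerfectClosure.of (R0 k r) p g) + rt p 1 (tC p k r d.C) * x)

theorem small_of {r0 : ℕ} (d : PExt.{u} p k r r0) (L : AddLen (WittVector p d.C))
    (hL : L.len (WittVector p d.C ⧸ vW p k r d.C) = 1) {a Cg : ℕ} {γ : d.C}
    (h : SmallForm d a Cg γ) (j c : ℕ) (hc : 1 ≤ c) :
    L.len ((WittVector p d.C ⧸ vW p k r d.C) ⧸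
      sm (teichmuller p (rt p j γ) ^ c) (WittVector p d.C ⧸ vW p k r d.C)) ≤
      (p * c * (a + Cg) : ℕ) / (p : ℝ≥0∞) ^ j := by
  obtain ⟨g, x, h1, h2⟩ := h.ex
  rw [len_quot_sm]
  have h3 := Vale.Agent.P177.Pos.small d L (by rw [ker_ccV_eq]; exact hL) g Cg h1 a x γ h2 j c hc
  rw [ker_ccV_eq] at h3
  exact h3

variable {Λ : Type u} [CommRing Λ] {ψ : Λ →+* WittVector p (Rp p k r)}
variable {s D : ℕ} {G : Fin s → Polynomial Λ} {E : MvPolynomial (Fin s) Λ} {g : Λ} {I r0 : ℕ}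
  (d : CData.{u} ψ (D := D) G E g I r0)

/-- the element `Θ_π`. -/
noncomputable def Thπ (nz : Finset (Fin s)) (γ : d.C) (π : Fin s → Fin D) : d.C :=
  d.δ π * γ * ∏ l ∈ nz, d.c l (π l)

theorem sm_le_of_hull {nz : Finset (Fin s)} {γ : d.C} {π : Fin s → Fin D} {w : WittVector p d.C}
    (h : teichmuller p (d.δ π * γ) - teichmuller p (∏ l ∈ nz, d.c l (π l)) * w ∈
      xiM p k r d.C (I + 1)) {j n : ℕ} (hn : 1 ≤ n) (hj : p ^ j ≤ I + 1) :
    sm (teichmuller p (rt p j (d.δ π * γ)) ^ (3 * n)) (WittVector p d.C ⧸ vW p k r d.C) ≤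
      sm (teichmuller p (rt p j (Thπ d nz γ π)) ^ n) (WittVector p d.C ⧸ vW p k r d.C) := by
  set z := ∏ l ∈ nz, d.c l (π l) with hz
  set x := d.δ π * γ with hx
  have h1 := rt_mem_of_perfHull (mem_perfHull_of h) j n
  obtain ⟨y, y', hy⟩ := Ideal.mem_span_pair.1 h1
  have h2 : rt p j (tC p k r d.C ^ (I + 1)) ∈ Ideal.span {tC p k r d.C ^ 1} :=
    rt_mem_span p (tC p k r d.C) (e := j) (m := 1) (by rw [one_mul]; exact hj)
      (Ideal.mem_span_singleton_self _)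
  have h3 : Ideal.span {tC p k r d.C ^ 1} ≤ vI p k r d.C := by
    rw [pow_one, Ideal.span_singleton_le_iff_mem]
    exact Ideal.subset_span ⟨0, rfl⟩
  have h4 : rt p j x ^ (2 * n) - y * rt p j z ^ n ∈ vI p k r d.C := by
    rw [← hy, add_sub_cancel_left]
    refine Ideal.mul_mem_left _ _ ?_
    exact Ideal.pow_mem_of_mem _ (h3 h2) _ (by omega)
  have h5 : rt p j x ^ (3 * n) - y * rt p j (x * z) ^ n ∈ vI p k r d.C := by
    have h6 := Ideal.mul_mem_left _ (rt p j x ^ n) h4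
    have h7 : rt p j x ^ n * (rt p j x ^ (2 * n) - y * rt p j z ^ n) =
        rt p j x ^ (3 * n) - y * rt p j (x * z) ^ n := by
      rw [rt_mul' p j x z, show 3 * n = n + 2 * n by ring, pow_add, mul_pow]
      ring
    rwa [h7] at h6
  have h8 := te_sub_mem_vW h5
  rw [map_pow, map_mul, map_pow] at h8
  rw [sm_congr h8, mul_comm]
  exact sm_mul_le _ _

variable {Ω : Type u} [Field Ω] [Algebra Λ Ω] (hinj : Function.Injective (algebraMap Λ Ω))
  (b : Fin s → Ω) (hGm : ∀ l, (G l).Monic) (hGD : ∀ l, (G l).natDegree = D)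
  (hGb : ∀ l, Polynomial.aeval (b l) (G l) = 0)
  (hEg : MvPolynomial.aeval b E = algebraMap Λ Ω g)
  (hE : ∀ f : MvPolynomial (Fin s) Λ, MvPolynomial.aeval b f = 0 →
    E * f ∈ Ideal.span (Set.range fun j => Polynomial.toMvPolynomial j (G j)))

include hinj hGm hGD hGb hEg hE in
theorem level_sum (L : AddLen (WittVector p d.C))
    (hL : L.len (WittVector p d.C ⧸ vW p k r d.C) = 1) {nz : Finset (Fin s)} {γ : d.C}
    (w : (Fin s → Fin D) → WittVector p d.C)
    (hw : ∀ π, teichmuller p (d.δ π * γ) - teichmuller p (∏ l ∈ nz, d.c l (π l)) * w π ∈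
      xiM p k r d.C (I + 1)) {a1 C1 a3 C3 : ℕ}
    (h1 : ∀ π, SmallForm d.toPExt a1 C1 (d.δ π + d.δ' π)) (h3 : SmallForm d.toPExt a3 C3 γ)
    {j n : ℕ} (hn : 1 ≤ n) (hj : p ^ j ≤ I + 1) :
    1 ≤ ∑ π, (L.len (sm (teichmuller p (rt p j (Thπ d nz γ π)) ^ n)
      (WittVector p d.C ⧸ vW p k r d.C)) + ((p * (3 * n) * (a3 + C3) : ℕ) / (p : ℝ≥0∞) ^ j +
        (p * (3 * n) * (a1 + C1) : ℕ) / (p : ℝ≥0∞) ^ j)) := by
  have ht := tC_mem_nonZeroDivisors d.toPExt
  obtain ⟨m, hm⟩ : ∃ m, 3 * n = m + 1 := ⟨3 * n - 1, by omega⟩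
  have hvt : Ideal.span {tC p k r d.C ^ 1} ≤ vI p k r d.C := by
    rw [pow_one, Ideal.span_singleton_le_iff_mem]
    exact Ideal.subset_span ⟨0, rfl⟩
  have hk : ∀ y ∈ Ideal.span {tC p k r d.C ^ (I + 1)},
      ∀ m : WittVector p d.C ⧸ vW p k r d.C, teichmuller p (rt p j y) • m = 0 := by
    intro y hy m
    have h1 := rt_mem_span p (tC p k r d.C) (e := j) (m := 1) (by rw [one_mul]; exact hj) hy
    obtain ⟨m, rfl⟩ := Ideal.Quotient.mk_surjective m
    change Ideal.Quotient.mk (vW p k r d.C) (teichmuller p (rt p j y) * m) = 0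
    rw [Ideal.Quotient.eq_zero_iff_mem]
    refine Ideal.mul_mem_right _ _ ?_
    rw [mem_vW_iff, teichmuller_coeff_zero]
    exact hvt h1
  have key := len_le_sum L (M := WittVector p d.C ⧸ vW p k r d.C)
    (fun π => teichmuller p (rt p j (d.δ π))) (fun π => teichmuller p (rt p j (d.δ' π)))
    (fun π m => by
      rw [← map_mul, ← rt_mul']
      exact hk _ (delta_mul_mem p (tC p k r d.C) ht (laB ψ d.C) G b E g hEg hE d.c d.δ d.δ'
        d.split d.hδ d.hδ' π) m)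
    (fun m => by
      rw [← map_prod, ← rt_prod']
      exact hk _ (prod_delta_mem p (tC p k r d.C) ht hinj (laB ψ d.C) G hGm hGD b hGb E g hEg
        d.c d.δ' d.split d.hδ') m) m
  rw [hL, ← hm] at key
  refine key.trans (Finset.sum_le_sum fun π _ => ?_)
  have e1 : teichmuller p (rt p j (d.δ π)) + teichmuller p (rt p j (d.δ' π)) -
      teichmuller p (rt p j (d.δ π + d.δ' π)) ∈ vW p k r d.C := by
    rw [rt_add', ← neg_sub]
    exact neg_mem (te_add_sub_mem _ _)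
  have e2 : (teichmuller p (rt p j (d.δ π)) + teichmuller p (rt p j (d.δ' π))) ^ (3 * n) -
      teichmuller p (rt p j (d.δ π + d.δ' π)) ^ (3 * n) ∈ vW p k r d.C := by
    rw [← Ideal.Quotient.eq] at e1 ⊢
    rw [map_pow, map_pow, e1]
  rw [sm_congr e2]
  have e3 := small_of d.toPExt L hL (h1 π) j (3 * n) (by omega)
  have e4 := small_of d.toPExt L hL h3 j (3 * n) (by omega)
  have e5 := len_sm_le L (M := WittVector p d.C ⧸ vW p k r d.C)
    (teichmuller p (rt p j (d.δ π)) ^ (3 * n)) (teichmuller p (rt p j γ) ^ (3 * n))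
  rw [← mul_pow, ← map_mul, ← rt_mul'] at e5
  have e6 := Vale.Agent.P177.Lim.len_sub_mono L (sm_le_of_hull d (hw π) hn hj)
  rw [← add_assoc]
  exact add_le_add (e5.trans (add_le_add e6 e4)) e3

end Vale.Agent.P177.Lev
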