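import Vale.Agent.P177.Lev.Defs
import Vale.Agent.P202.Mix.T7

/-!
P177, block LEV: the relations.
-/

namespace Vale.Agent.P177.Lev

open Vale.Agent.P202.Mix WittVector Polynomial

universe u

variable {p : ℕ} [Fact p.Prime] {k : Type u} [Field k] [CharP k p] {r : ℕ}
variable {Λ : Type u} [CommRing Λ] {ψ : Λ →+* WittVector p (Rp p k r)}

section

variable {C : Type u} [CommRing C] [Algebra (Rp p k r) C]

theorem xi_mem_xiM (N : ℕ) : (p : WittVector p C) - teichmuller p (tC p k r C) ∈
    xiM p k r C N := Ideal.subset_span (Set.mem_insert _ _)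

theorem p_pow_mem_xiM (N : ℕ) : (p : WittVector p C) ^ N ∈ xiM p k r C N :=
  Ideal.subset_span (Set.mem_insert_of_mem _ rfl)

theorem mem_xiM_iff (N : ℕ) (x : WittVector p C) : x ∈ xiM p k r C N ↔
    toB p C (tC p k r C) x ∈ Ideal.span {(p : Bt p C (tC p k r C)) ^ N} := by
  constructor
  · intro hx
    have hle : xiM p k r C N ≤ (Ideal.span {(p : Bt p C (tC p k r C)) ^ N}).comap
        (toB p C (tC p k r C)) := by
      rw [xiM, Ideal.span_le]
      rintro y (rfl | rfl)
      · rw [SetLike.mem_coe, Ideal.mem_comap]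
        have : toB p C (tC p k r C) ((p : WittVector p C) - teichmuller p (tC p k r C)) = 0 :=
          Ideal.Quotient.eq_zero_iff_mem.2 (Ideal.mem_span_singleton_self _)
        rw [this]
        exact zero_mem _
      · rw [SetLike.mem_coe, Ideal.mem_comap, map_pow, map_natCast]
        exact Ideal.mem_span_singleton_self _
    exact hle hx
  · intro hx
    obtain ⟨c, hc⟩ := Ideal.mem_span_singleton'.1 hx
    obtain ⟨w, rfl⟩ := toB_surjective p C (tC p k r C) c
    have h2 : toB p C (tC p k r C) (x - w * (p : WittVector p C) ^ N) = 0 := by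
      rw [map_sub, map_mul, map_pow, map_natCast, hc, sub_self]
    have h3 : x - w * (p : WittVector p C) ^ N ∈
        Ideal.span {(p : WittVector p C) - teichmuller p (tC p k r C)} :=
      Ideal.Quotient.eq_zero_iff_mem.1 h2
    have h4 : Ideal.span {(p : WittVector p C) - teichmuller p (tC p k r C)} ≤
        xiM p k r C N := by
      rw [Ideal.span_singleton_le_iff_mem]
      exact xi_mem_xiM N
    have := add_mem (h4 h3) (Ideal.mul_mem_left _ w (p_pow_mem_xiM N))
    rwa [sub_add_cancel] at this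

theorem mem_xiM_iff_exists (N : ℕ) (x : WittVector p C) : x ∈ xiM p k r C N ↔
    ∃ v w, x = ((p : WittVector p C) - teichmuller p (tC p k r C)) * v +
      (p : WittVector p C) ^ N * w := by
  rw [xiM, Ideal.mem_span_pair]
  constructor
  · rintro ⟨a, b, h⟩
    exact ⟨a, b, by rw [← h]; ring⟩
  · rintro ⟨a, b, rfl⟩
    exact ⟨a, b, by ring⟩

theorem toB_laW (l : Λ) : toB p C (tC p k r C) (laW ψ C l) = laB ψ C l := rfl

theorem toB_eval {s : ℕ} (c : Fin s → C) (f : MvPolynomial (Fin s) Λ) :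
    toB p C (tC p k r C) (MvPolynomial.eval₂ (laW ψ C) (fun l => teichmuller p (c l)) f) =
      MvPolynomial.eval₂ (laB ψ C) (fun l => te p C (tC p k r C) (c l)) f := by
  rw [MvPolynomial.hom_eval₂]
  rfl

theorem toB_eval_poly (c : C) (f : Λ[X]) :
    toB p C (tC p k r C) (Polynomial.eval₂ (laW ψ C) (teichmuller p c) f) =
      Polynomial.eval₂ (laB ψ C) (te p C (tC p k r C) c) f := by
  rw [Polynomial.hom_eval₂]
  rfl

theorem eval_toMv {s : ℕ} (c : Fin s → WittVector p C) (l : Fin s) (f : Λ[X]) :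
    MvPolynomial.eval₂ (laW ψ C) c (Polynomial.toMvPolynomial l f) =
      Polynomial.eval₂ (laW ψ C) (c l) f := by
  rw [Polynomial.toMvPolynomial]
  change (MvPolynomial.eval₂Hom (laW ψ C) c) (aeval (MvPolynomial.X l) f) = _
  rw [aeval_def, hom_eval₂, MvPolynomial.coe_eval₂Hom, MvPolynomial.eval₂_X]
  congr 1
  ext x
  simp

end

section

variable {s D : ℕ} {G : Fin s → Λ[X]} {E : MvPolynomial (Fin s) Λ} {g : Λ} {I r0 : ℕ}
  (d : CData.{u} ψ (D := D) G E g I r0) (π : Fin s → Fin D)

/-- the honest relations. -/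
theorem relG_of (l : Fin s) : Polynomial.eval₂ (laW ψ d.C) (teichmuller p (d.c l (π l))) (G l) ∈
    xiM p k r d.C (I + 1) := by
  rw [mem_xiM_iff, toB_eval_poly]
  have h := eval_mem_of_mem d π (f := Polynomial.toMvPolynomial l (G l))
    (Ideal.subset_span ⟨l, rfl⟩)
  rw [← toB_eval (C := d.C) (fun j => d.c j (π j)), eval_toMv, toB_eval_poly] at h
  exact h

/-- relations multiplied by `E` -/
theorem rel_of {f : MvPolynomial (Fin s) Λ}
    (hf : E * f ∈ Ideal.span (Set.range fun j => Polynomial.toMvPolynomial j (G j))) :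
    teichmuller p (d.δ π) * MvPolynomial.eval₂ (laW ψ d.C)
      (fun l => teichmuller p (d.c l (π l))) f ∈ xiM p k r d.C (I + 1) := by
  rw [mem_xiM_iff, map_mul, toB_eval (C := d.C) (fun j => d.c j (π j))]
  have h := eval_mem_of_mem d π hf
  rw [MvPolynomial.eval₂_mul] at h
  have h4 := Ideal.add_mem _ (Ideal.mul_mem_right (MvPolynomial.eval₂ (laB ψ d.C)
    (fun l => te p d.C (tC p k r d.C) (d.c l (π l))) f) _ (d.hδ π)) h
  rw [sub_mul, sub_add_cancel] at h4
  exact h4

end

section

variable {C : Type u} [CommRing C] [CharP C p] [PerfectRing C p] [Algebra (Rp p k r) C]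

/-- roots: `[x] y ∈ (p - [t], p^(I+1))` implies `[x^(1/p^i)] y ∈ (p - [t], p^N)`,
`p^i N ≤ I + 1`. -/
theorem rel_root (ht : tC p k r C ∈ nonZeroDivisors C) {I : ℕ} {x : C} {y : WittVector p C}
    (h : teichmuller p x * y ∈ xiM p k r C (I + 1)) (i N : ℕ) (hN : p ^ i * N ≤ I + 1) :
    teichmuller p (rt p i x) * y ∈ xiM p k r C N := by
  rw [mem_xiM_iff] at h ⊢
  refine root_closed p C _ ht i N _ ?_
  rw [← map_pow, mul_pow, ← map_pow]
  have h1 : rt p i x ^ p ^ i = x := rt_pow_self p C x i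
  have hpe : 1 ≤ p ^ i := Nat.one_le_pow _ _ (Fact.out : p.Prime).pos
  obtain ⟨m, hm⟩ : ∃ m, p ^ i = m + 1 := ⟨p ^ i - 1, by omega⟩
  have h2 : teichmuller p (rt p i x ^ p ^ i) * y ^ p ^ i =
      y ^ m * (teichmuller p x * y) := by
    rw [h1]
    nth_rewrite 1 [hm]
    ring
  rw [h2, map_mul]
  refine Ideal.mul_mem_left _ _ ?_
  exact Ideal.span_singleton_le_span_singleton.mpr (pow_dvd_pow _ hN) h

end

end Vale.Agent.P177.Lev
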